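import Vale.Agent.P134.SM.Cut

set_option linter.all false

/-! Integration by parts for compactly supported fields, derivative in the radius of
`∫ φ(|x-y|²/R²) f`, averaging over balls. -/

namespace Vale.Agent.P134.SM

open Vale.Agent.P134 Filter Topology MeasureTheory

variable {n : ℕ} {f g u η p : (Fin n → ℝ) → ℝ} {x y z : Fin n → ℝ} {i j k : Fin n} {R r : ℝ}

/-! ### Integration by parts -/

lemma int_pd_zero (hg : ContDiff ℝ 1 g) (hc : HasCompactSupport g) (i : Fin n) :
    ∫ x, pd i g x = 0 := by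
  have h := integral_mul_pd (f := fun _ : Fin n → ℝ => (1:ℝ)) (i := i) contDiff_const hg hc
  simp only [one_mul, pd_const, zero_mul, integral_zero, neg_zero] at h
  exact h

/-- A product `η f` is smooth if `η` is and `f` is smooth at the points of `tsupport η`. -/
lemma cd_mul_of_loc {k : WithTop ℕ∞} (hη : ContDiff ℝ k η)
    (hf : ∀ x ∈ tsupport η, ContDiffAt ℝ k f x) : ContDiff ℝ k (fun x => η x * f x) := by
  rw [contDiff_iff_contDiffAt]
  intro x
  by_cases hx : x ∈ tsupport η
  · exact hη.contDiffAt.mul (hf x hx)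
  · have : (fun x => η x * f x) =ᶠ[𝓝 x] fun _ => 0 := by
      filter_upwards [(isClosed_tsupport η).isOpen_compl.mem_nhds hx] with z hz
      rw [image_eq_zero_of_notMem_tsupport hz, zero_mul]
    exact contDiffAt_const.congr_of_eventuallyEq this

lemma cont_mul_of_loc (hη : Continuous η)
    (hf : ∀ x ∈ tsupport η, ContinuousAt f x) : Continuous (fun x => η x * f x) := by
  rw [continuous_iff_continuousAt]
  intro x
  by_cases hx : x ∈ tsupport η
  · exact hη.continuousAt.mul (hf x hx)
  · have : (fun x => η x * f x) =ᶠ[𝓝 x] fun _ => 0 := by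
      filter_upwards [(isClosed_tsupport η).isOpen_compl.mem_nhds hx] with z hz
      rw [image_eq_zero_of_notMem_tsupport hz, zero_mul]
    exact continuousAt_const.congr this.symm

lemma integrable_mul_of_loc (hη : Continuous η) (hc : HasCompactSupport η)
    (hf : ∀ x ∈ tsupport η, ContinuousAt f x) : Integrable (fun x => η x * f x) :=
  (cont_mul_of_loc hη hf).integrable_of_hasCompactSupport hc.mul_right

lemma tsupport_pd_subset (η : (Fin n → ℝ) → ℝ) (i : Fin n) : tsupport (pd i η) ⊆ tsupport η := by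
  refine closure_minimal ?_ (isClosed_tsupport _)
  intro x hx
  by_contra h
  exact hx (pd_eq_zero_of_notMem_tsupport h)

/-- One component, the field smooth only near the support of the test function. -/
lemma int_mul_pd_loc (hη : ContDiff ℝ 1 η) (hc : HasCompactSupport η)
    (hf : ∀ x ∈ tsupport η, ContDiffAt ℝ 1 f x) (i : Fin n) :
    ∫ x, η x * pd i f x = - ∫ x, pd i η x * f x := by
  have h1 : ContDiff ℝ 1 (fun x => η x * f x) := cd_mul_of_loc hη hf
  have h2 : HasCompactSupport (fun x => η x * f x) := hc.mul_right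
  have h3 := int_pd_zero h1 h2 i
  have e : ∀ x, pd i (fun x => η x * f x) x = pd i η x * f x + η x * pd i f x := by
    intro x
    by_cases hx : x ∈ tsupport η
    · rw [pd_mul (hη.differentiable (by norm_num) x) ((hf x hx).differentiableAt (by norm_num))]
      ring
    · have h5 : (fun x => η x * f x) =ᶠ[𝓝 x] fun _ => 0 := by
        filter_upwards [(isClosed_tsupport η).isOpen_compl.mem_nhds hx] with z hz
        rw [image_eq_zero_of_notMem_tsupport hz, zero_mul]
      rw [pd_congr h5, pd_const, pd_eq_zero_of_notMem_tsupport hx,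
        image_eq_zero_of_notMem_tsupport hx]
      ring
  simp_rw [e] at h3
  have i1 : Integrable (fun x => pd i η x * f x) :=
    integrable_mul_of_loc (continuous_pd hη) (hasCompactSupport_pd hc)
      (fun x hx => (hf x (tsupport_pd_subset η i hx)).continuousAt)
  have i2 : Integrable (fun x => η x * pd i f x) := by
    refine integrable_mul_of_loc hη.continuous hc (fun x hx => ?_)
    have := hf x hx
    have h6 : ContDiffAt ℝ 0 (pd i f) x := by
      have := cda_pd (m := 0) (i := i) (x := x) (f := f) (by simpa using this)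
      simpa using this
    exact h6.continuousAt
  rw [integral_add i1 i2] at h3
  linarith

/-- `∫ η div X = - ∫ ∇η · X`, the field `X` being `C¹` near the support of `η`. -/
lemma int_div_loc (hη : ContDiff ℝ 1 η) (hc : HasCompactSupport η)
    {X : Fin n → (Fin n → ℝ) → ℝ} (hX : ∀ i, ∀ x ∈ tsupport η, ContDiffAt ℝ 1 (X i) x) :
    ∫ x, η x * ∑ i, pd i (X i) x = - ∫ x, ∑ i, pd i η x * X i x := by
  simp_rw [Finset.mul_sum]
  have h6 : ∀ i, ∀ x ∈ tsupport η, ContinuousAt (pd i (X i)) x := by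
    intro i x hx
    have h := cda_pd (m := 0) (i := i) (x := x) (f := X i) (by simpa using hX i x hx)
    have h7 : ContDiffAt ℝ 0 (pd i (X i)) x := by simpa using h
    exact h7.continuousAt
  rw [integral_finset_sum _ (fun i _ => integrable_mul_of_loc hη.continuous hc (h6 i)),
    integral_finset_sum _ (fun i _ => integrable_mul_of_loc (continuous_pd hη)
      (hasCompactSupport_pd hc) (fun x hx => (hX i x (tsupport_pd_subset η i hx)).continuousAt)),
    ← Finset.sum_neg_distrib]
  exact Finset.sum_congr rfl fun i _ => int_mul_pd_loc hη hc (hX i) i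

/-- `∫ η div X = - ∫ ∇η · X`. -/
lemma int_div (hη : ContDiff ℝ 1 η) (hc : HasCompactSupport η)
    {X : Fin n → (Fin n → ℝ) → ℝ} (hX : ∀ i, ContDiff ℝ 1 (X i)) :
    ∫ x, η x * ∑ i, pd i (X i) x = - ∫ x, ∑ i, pd i η x * X i x :=
  int_div_loc hη hc (fun i x _ => (hX i).contDiffAt)

/-- `∫ div X = 0` for compactly supported `C¹` fields. -/
lemma int_div_zero {X : Fin n → (Fin n → ℝ) → ℝ} (hX : ∀ i, ContDiff ℝ 1 (X i))
    (hc : ∀ i, HasCompactSupport (X i)) : ∫ x, ∑ i, pd i (X i) x = 0 := by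
  rw [integral_finset_sum _ (fun i _ => (continuous_pd (hX i)).integrable_of_hasCompactSupport
    (hasCompactSupport_pd (hc i)))]
  exact Finset.sum_eq_zero fun i _ => int_pd_zero (hX i) (hc i) i

/-- Weighted Green identity `∫ η div(p ∇f) = - ∫ p ∇η·∇f`, local version. -/
lemma int_green_loc (hη : ContDiff ℝ 1 η) (hc : HasCompactSupport η)
    (hp : ∀ x ∈ tsupport η, ContDiffAt ℝ 1 p x) (hf : ∀ x ∈ tsupport η, ContDiffAt ℝ 2 f x) :
    ∫ x, η x * ∑ i, pd i (fun y => p y * pd i f y) x = - ∫ x, p x * gg η f x := by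
  rw [int_div_loc (X := fun i y => p y * pd i f y) hη hc
    (fun i x hx => (hp x hx).mul (cda_pd1 (hf x hx)))]
  congr 1
  refine integral_congr_ae (Eventually.of_forall fun x => ?_)
  simp only [gg, Finset.mul_sum]
  exact Finset.sum_congr rfl fun i _ => by ring

/-- `∫ η Δf = - ∫ ∇η·∇f`. -/
lemma int_lap_loc (hη : ContDiff ℝ 1 η) (hc : HasCompactSupport η)
    (hf : ∀ x ∈ tsupport η, ContDiffAt ℝ 2 f x) :
    ∫ x, η x * lap f x = - ∫ x, gg η f x := by
  have := int_div_loc (X := fun i y => pd i f y) hη hc (fun i x hx => cda_pd1 (hf x hx))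
  simpa [lap, gg] using this

lemma int_lap (hη : ContDiff ℝ 1 η) (hc : HasCompactSupport η) (hf : ContDiff ℝ 2 f) :
    ∫ x, η x * lap f x = - ∫ x, gg η f x :=
  int_lap_loc hη hc (fun x _ => hf.contDiffAt)

/-- `∫ η Δf = ∫ f Δη` for `η ∈ C²_c`. -/
lemma int_lap_symm (hη : ContDiff ℝ 2 η) (hc : HasCompactSupport η) (hf : ContDiff ℝ 2 f) :
    ∫ x, η x * lap f x = ∫ x, f x * lap η x := by
  rw [int_lap (hη.of_le (by norm_num)) hc hf]
  have h : ∀ i, ∫ x, f x * pd i (pd i η) x = - ∫ x, pd i f x * pd i η x := fun i =>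
    integral_mul_pd (hf.of_le (by norm_num)) (contDiff_pd_one hη) (hasCompactSupport_pd hc)
  have c1 : ∀ i, Integrable (fun x => f x * pd i (pd i η) x) := fun i =>
    (hf.continuous.mul (continuous_pd (contDiff_pd_one hη))).integrable_of_hasCompactSupport
      ((hasCompactSupport_pd (hasCompactSupport_pd hc)).mul_left)
  have c2 : ∀ i, Integrable (fun x => pd i η x * pd i f x) := fun i =>
    ((continuous_pd (hη.of_le (by norm_num))).mul
      (continuous_pd (hf.of_le (by norm_num)))).integrable_of_hasCompactSupport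
      ((hasCompactSupport_pd hc).mul_right)
  unfold lap gg
  simp_rw [Finset.mul_sum]
  rw [integral_finset_sum _ (fun i _ => c1 i), integral_finset_sum _ (fun i _ => c2 i),
    ← Finset.sum_neg_distrib]
  refine Finset.sum_congr rfl fun i _ => ?_
  rw [h i]
  congr 1
  exact integral_congr_ae (Eventually.of_forall fun x => by ring)

/-! ### Radial weights and comparison of integrals over balls -/

lemma integrable_rc_mul (hR : 0 < R) (hf : Continuous f) (y : Fin n → ℝ) :
    Integrable (fun x => rc y R x * f x) :=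
  ((rc_continuous y R).mul hf).integrable_of_hasCompactSupport
    (rc_hasCompactSupport hR).mul_right

lemma integrableOn_eb (hf : Continuous f) (y : Fin n → ℝ) (R : ℝ) :
    IntegrableOn f (eb y R) volume := hf.continuousOn.integrableOn_compact (isCompact_eb y R)

lemma int_eb_mono (hf : Continuous f) (h0 : ∀ x, 0 ≤ f x) (hr : 0 ≤ r) (h : r ≤ R)
    (y : Fin n → ℝ) : ∫ x in eb y r, f x ≤ ∫ x in eb y R, f x :=
  setIntegral_mono_set (integrableOn_eb hf y R) (Eventually.of_forall h0)
    (HasSubset.Subset.eventuallyLE (eb_mono hr h))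

lemma int_eb_nonneg (h0 : ∀ x, 0 ≤ f x) (y : Fin n → ℝ) (R : ℝ) : 0 ≤ ∫ x in eb y R, f x :=
  setIntegral_nonneg (measurableSet_eb y R) (fun x _ => h0 x)

/-- `∫_{B_R} f ≤ ∫ η f` if `η ≥ 1` on the ball. -/
lemma int_eb_le_of_one (hf : Continuous f) (h0 : ∀ x, 0 ≤ f x) (hη : Continuous η)
    (hc : HasCompactSupport η) (hη0 : ∀ x, 0 ≤ η x) (h1 : ∀ x ∈ eb y R, 1 ≤ η x) :
    ∫ x in eb y R, f x ≤ ∫ x, η x * f x := by
  have hi : Integrable (fun x => η x * f x) :=
    (hη.mul hf).integrable_of_hasCompactSupport hc.mul_right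
  calc ∫ x in eb y R, f x ≤ ∫ x in eb y R, η x * f x := by
        refine setIntegral_mono_on (integrableOn_eb hf y R) hi.integrableOn
          (measurableSet_eb y R) (fun x hx => ?_)
        have := mul_le_mul_of_nonneg_right (h1 x hx) (h0 x)
        linarith
    _ ≤ ∫ x, η x * f x := setIntegral_le_integral hi
        (Eventually.of_forall fun x => mul_nonneg (hη0 x) (h0 x))

/-- `∫ g ≤ ∫_{B_R} f` if `g = 0` off the ball and `g ≤ f` on the ball. -/
lemma int_le_int_eb (hg : Integrable g) (hf : Continuous f)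
    (hz : ∀ x, x ∉ eb y R → g x = 0) (h1 : ∀ x ∈ eb y R, g x ≤ f x) :
    ∫ x, g x ≤ ∫ x in eb y R, f x := by
  rw [← setIntegral_eq_integral_of_forall_compl_eq_zero hz]
  exact setIntegral_mono_on hg.integrableOn (integrableOn_eb hf y R) (measurableSet_eb y R) h1

lemma int_eb_le_rc (hf : Continuous f) (h0 : ∀ x, 0 ≤ f x) (hR : 0 < R) (y : Fin n → ℝ) :
    ∫ x in eb y R, f x ≤ ∫ x, rc y R x * f x :=
  int_eb_le_of_one hf h0 (rc_continuous y R) (rc_hasCompactSupport hR) (rc_nonneg y R)
    (fun x hx => (rc_one hR hx).ge)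

lemma int_rc_le_eb (hf : Continuous f) (h0 : ∀ x, 0 ≤ f x) (hR : 0 < R) (y : Fin n → ℝ) :
    ∫ x, rc y R x * f x ≤ ∫ x in eb y (2 * R), f x :=
  int_le_int_eb (integrable_rc_mul hR hf y) hf (fun x hx => by rw [rc_zero hR hx, zero_mul])
    (fun x _ => mul_le_of_le_one_left (h0 x) (rc_le_one y R x))

lemma int_eb_le_rc_sq (hf : Continuous f) (h0 : ∀ x, 0 ≤ f x) (hR : 0 < R) (y : Fin n → ℝ) :
    ∫ x in eb y R, f x ≤ ∫ x, rc y R x ^ 2 * f x :=
  int_eb_le_of_one hf h0 ((rc_continuous y R).pow 2)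
    (HasCompactSupport.comp_left (g := fun t : ℝ => t ^ 2) (rc_hasCompactSupport hR) (by norm_num))
    (fun x => sq_nonneg _) (fun x hx => by rw [rc_one hR hx]; norm_num)

/-! ### Derivative in the radius -/

/-- `d/dR ∫ φ(|x-y|²/R²) f = ∫ φ'(|x-y|²/R²) (-2|x-y|²/R³) f`. -/
theorem hasDerivAt_int_rad {φ : ℝ → ℝ} (hφ : ContDiff ℝ 1 φ) {s₀ : ℝ}
    (hφ0 : ∀ s, s₀ ≤ s → φ s = 0) (hf : Continuous f) (y : Fin n → ℝ) (hR : 0 < R) :
    HasDerivAt (fun R => ∫ x, φ (dsq y x / R ^ 2) * f x)
      (∫ x, deriv φ (dsq y x / R ^ 2) * (-2 * dsq y x / R ^ 3) * f x) R := by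
  -- work in the ball of radius ρ := 2R(1+|s₀|)
  set ρ : ℝ := 2 * R * (1 + |s₀|) with hρ
  have hρ0 : 0 < ρ := by positivity
  have hout : ∀ t : ℝ, 0 < t → t < 2 * R → ∀ x, x ∉ eb y ρ → s₀ < dsq y x / t ^ 2 := by
    intro t ht0 ht x hx
    rw [lt_div_iff₀ (by positivity)]
    have h1 : ρ ^ 2 < dsq y x := not_le.1 hx
    refine lt_of_le_of_lt ?_ h1
    rw [hρ]
    have h2 : t ^ 2 ≤ (2 * R) ^ 2 := by gcongr
    calc s₀ * t ^ 2 ≤ |s₀| * t ^ 2 := by gcongr; exact le_abs_self _
      _ ≤ |s₀| * (2 * R) ^ 2 := by gcongr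
      _ ≤ (2 * R * (1 + |s₀|)) ^ 2 := by
          rw [mul_pow]
          nlinarith [abs_nonneg s₀, sq_nonneg (2 * R), mul_nonneg (sq_nonneg (2 * R)) (abs_nonneg s₀),
            mul_nonneg (sq_nonneg (2 * R)) (sq_nonneg |s₀|)]
  have hd0 : ∀ s, s₀ < s → deriv φ s = 0 := by
    intro s hs
    have : φ =ᶠ[𝓝 s] fun _ => 0 := by
      filter_upwards [Ioi_mem_nhds hs] with t ht using hφ0 t (le_of_lt ht)
    rw [this.deriv_eq]; simp
  have hcφ : Continuous φ := hφ.continuous
  have hcd : Continuous (deriv φ) := hφ.continuous_deriv le_rfl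
  -- derivative of the integrand
  have hder : ∀ t : ℝ, 0 < t → ∀ x, HasDerivAt (fun R => φ (dsq y x / R ^ 2) * f x)
      (deriv φ (dsq y x / t ^ 2) * (-2 * dsq y x / t ^ 3) * f x) t := by
    intro t ht x
    have h1 : HasDerivAt (fun R : ℝ => dsq y x / R ^ 2) (-2 * dsq y x / t ^ 3) t := by
      have h2 := ((hasDerivAt_pow 2 t).inv (by positivity)).const_mul (dsq y x)
      refine (h2.congr_deriv ?_).congr_of_eventuallyEq ?_
      · field_simp
        norm_num
        ring
      · exact Eventually.of_forall fun R => by simp [div_eq_mul_inv]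
    exact ((((hφ.differentiable (by norm_num)) _).hasDerivAt.comp t h1).mul_const (f x))
  -- the bound
  have hK : ∃ M, ∀ t ∈ Set.Icc (R / 2) (3 * R / 2), ∀ x ∈ eb y ρ,
      ‖deriv φ (dsq y x / t ^ 2) * (-2 * dsq y x / t ^ 3) * f x‖ ≤ M := by
    have hcpt : IsCompact (Set.Icc (R / 2) (3 * R / 2) ×ˢ eb y ρ) :=
      isCompact_Icc.prod (isCompact_eb y ρ)
    have hcont : ContinuousOn (fun q : ℝ × (Fin n → ℝ) =>
        deriv φ (dsq y q.2 / q.1 ^ 2) * (-2 * dsq y q.2 / q.1 ^ 3) * f q.2)
        (Set.Icc (R / 2) (3 * R / 2) ×ˢ eb y ρ) := by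
      have hdq : Continuous fun q : ℝ × (Fin n → ℝ) => dsq y q.2 :=
        (dsq_continuous y).comp continuous_snd
      have hne : ∀ q ∈ Set.Icc (R / 2) (3 * R / 2) ×ˢ eb y ρ, q.1 ≠ 0 := by
        rintro ⟨t, x⟩ ⟨ht, -⟩
        have : R / 2 ≤ t := ht.1
        have : 0 < t := by linarith
        exact this.ne'
      refine ContinuousOn.mul (ContinuousOn.mul (hcd.comp_continuousOn ?_) ?_)
        (hf.comp continuous_snd).continuousOn
      · exact hdq.continuousOn.div (by fun_prop) (fun q hq => pow_ne_zero 2 (hne q hq))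
      · exact (continuous_const.mul hdq).continuousOn.div (by fun_prop)
          (fun q hq => pow_ne_zero 3 (hne q hq))
    obtain ⟨M, hM⟩ := hcpt.exists_bound_of_continuousOn hcont
    exact ⟨M, fun t ht x hx => hM (t, x) ⟨ht, hx⟩⟩
  obtain ⟨M, hM⟩ := hK
  have hint : ∀ t : ℝ, 0 < t → t < 2 * R → Integrable (fun x => φ (dsq y x / t ^ 2) * f x) := by
    intro t ht0 ht
    have hc1 : Continuous (fun x => φ (dsq y x / t ^ 2) * f x) :=
      (hcφ.comp ((dsq_continuous y).div_const _)).mul hf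
    refine hc1.integrable_of_hasCompactSupport ?_
    refine (isCompact_eb y ρ).of_isClosed_subset (isClosed_tsupport _) ?_
    refine closure_minimal ?_ (isClosed_eb _ _)
    intro x hx
    by_contra h
    exact hx (by simp only; rw [hφ0 _ (hout t ht0 ht x h).le, zero_mul])
  have hball : ∀ t ∈ Metric.ball R (R / 2), 0 < t ∧ t < 2 * R ∧ t ∈ Set.Icc (R / 2) (3 * R / 2) := by
    intro t ht
    rw [Metric.mem_ball, Real.dist_eq, abs_lt] at ht
    refine ⟨by linarith [ht.1], by linarith [ht.2], by linarith [ht.1], by linarith [ht.2]⟩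
  refine (hasDerivAt_integral_of_dominated_loc_of_deriv_le (μ := volume)
    (F := fun R x => φ (dsq y x / R ^ 2) * f x)
    (F' := fun R x => deriv φ (dsq y x / R ^ 2) * (-2 * dsq y x / R ^ 3) * f x)
    (bound := fun x => (eb y ρ).indicator (fun _ => M) x) (s := Metric.ball R (R / 2))
    (Metric.ball_mem_nhds R (by positivity)) ?_ (hint R hR (by linarith)) ?_ ?_ ?_ ?_).2
  · filter_upwards [Metric.ball_mem_nhds R (show 0 < R / 2 by positivity)] with t ht
    obtain ⟨h1, h2, h3⟩ := hball t ht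
    exact (hint t h1 h2).aestronglyMeasurable
  · exact (((hcd.comp ((dsq_continuous y).div_const _)).mul
      ((continuous_const.mul (dsq_continuous y)).div_const _)).mul hf).aestronglyMeasurable
  · refine Eventually.of_forall fun x t ht => ?_
    obtain ⟨h1, h2, h3⟩ := hball t ht
    by_cases hx : x ∈ eb y ρ
    · rw [Set.indicator_of_mem hx]; exact hM t h3 x hx
    · rw [Set.indicator_of_notMem hx, hd0 _ (hout t h1 h2 x hx)]; simp
  · exact (integrable_indicator_iff (measurableSet_eb y ρ)).2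
      (integrableOn_const (volume_eb_lt_top y ρ).ne)
  · refine Eventually.of_forall fun x t ht => ?_
    exact hder t (hball t ht).1 x

/-! ### Averaging over balls -/

lemma int_int_eb_aux (hf : Continuous f) {z : Fin n → ℝ} (hR : 0 ≤ R) (hr : 0 ≤ r) :
    ∫ y in eb z R, ∫ x in eb y r, f x
      = ∫ x in eb z (R + r), f x * (volume (eb z R ∩ eb x r)).toReal ∧
    IntegrableOn (fun y => ∫ x in eb y r, f x) (eb z R) ∧
    IntegrableOn (fun x => f x * (volume (eb z R ∩ eb x r)).toReal) (eb z (R + r)) := by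
  have hms : MeasurableSet {q : (Fin n → ℝ) × (Fin n → ℝ) | dsq q.1 q.2 ≤ r ^ 2} :=
    (isClosed_le dsq_continuous2 continuous_const).measurableSet
  -- the integrand on the product
  set G : (Fin n → ℝ) → (Fin n → ℝ) → ℝ := fun y x =>
    (eb z R).indicator (fun _ => (1:ℝ)) y * ((eb y r).indicator (fun _ => (1:ℝ)) x *
      (eb z (R + r)).indicator f x) with hG
  have e1 : ∀ y, ∫ x, G y x = (eb z R).indicator (fun y => ∫ x in eb y r, f x) y := by
    intro y
    by_cases hy : y ∈ eb z R
    · rw [Set.indicator_of_mem hy, ← integral_indicator (measurableSet_eb y r)]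
      refine integral_congr_ae (Eventually.of_forall fun x => ?_)
      simp only [hG, Set.indicator_of_mem hy, one_mul]
      by_cases hx : x ∈ eb y r
      · rw [Set.indicator_of_mem hx, Set.indicator_of_mem hx,
          Set.indicator_of_mem (eb_subset hr hR hy hx), one_mul]
      · rw [Set.indicator_of_notMem hx, Set.indicator_of_notMem hx, zero_mul]
    · rw [Set.indicator_of_notMem hy]
      simp [hG, Set.indicator_of_notMem hy]
  have e2 : ∀ x, ∫ y, G y x = (eb z (R + r)).indicator
      (fun x => f x * (volume (eb z R ∩ eb x r)).toReal) x := by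
    intro x
    by_cases hx : x ∈ eb z (R + r)
    · rw [Set.indicator_of_mem hx]
      have : ∀ y, G y x = f x * (eb z R ∩ eb x r).indicator (fun _ => (1:ℝ)) y := by
        intro y
        simp only [hG, Set.indicator_of_mem hx]
        by_cases hy : y ∈ eb z R
        · by_cases hxy : x ∈ eb y r
          · have hm : y ∈ eb z R ∩ eb x r := ⟨hy, mem_eb_comm.1 hxy⟩
            rw [Set.indicator_of_mem hy, Set.indicator_of_mem hxy, Set.indicator_of_mem hm]; ring
          · have hm : y ∉ eb z R ∩ eb x r := fun h => hxy (mem_eb_comm.1 h.2)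
            rw [Set.indicator_of_notMem hxy, Set.indicator_of_notMem hm]; ring
        · have hm : y ∉ eb z R ∩ eb x r := fun h => hy h.1
          rw [Set.indicator_of_notMem hy, Set.indicator_of_notMem hm]; ring
      simp_rw [this]
      rw [integral_const_mul, integral_indicator ((measurableSet_eb z R).inter
        (measurableSet_eb x r)), setIntegral_const, smul_eq_mul, mul_one]
      rfl
    · rw [Set.indicator_of_notMem hx]
      simp [hG, Set.indicator_of_notMem hx]
  have hint : Integrable (Function.uncurry G) (volume.prod volume) := by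
    have h1 : Integrable ((eb z R ×ˢ eb z (R + r)).indicator
        (fun q : (Fin n → ℝ) × (Fin n → ℝ) => f q.2)) (volume.prod volume) := by
      rw [integrable_indicator_iff ((measurableSet_eb z R).prod (measurableSet_eb z (R + r)))]
      exact (hf.comp continuous_snd).continuousOn.integrableOn_compact
        ((isCompact_eb z R).prod (isCompact_eb z (R + r)))
    have h2 : Integrable ({q : (Fin n → ℝ) × (Fin n → ℝ) | dsq q.1 q.2 ≤ r ^ 2}.indicator
        ((eb z R ×ˢ eb z (R + r)).indicator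
        (fun q : (Fin n → ℝ) × (Fin n → ℝ) => f q.2))) (volume.prod volume) :=
      h1.indicator hms
    refine h2.congr (Eventually.of_forall ?_)
    rintro ⟨y, x⟩
    simp only [Function.uncurry, hG]
    by_cases h2 : x ∈ eb y r
    · have h2' : ((y, x) : (Fin n → ℝ) × (Fin n → ℝ)) ∈
          {q : (Fin n → ℝ) × (Fin n → ℝ) | dsq q.1 q.2 ≤ r ^ 2} := h2
      rw [Set.indicator_of_mem h2', Set.indicator_of_mem h2]
      by_cases h1 : y ∈ eb z R
      · rw [Set.indicator_of_mem h1]
        by_cases h3 : x ∈ eb z (R + r)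
        · have h4 : ((y, x) : (Fin n → ℝ) × (Fin n → ℝ)) ∈ eb z R ×ˢ eb z (R + r) := ⟨h1, h3⟩
          rw [Set.indicator_of_mem h4, Set.indicator_of_mem h3]; ring
        · have h4 : ((y, x) : (Fin n → ℝ) × (Fin n → ℝ)) ∉ eb z R ×ˢ eb z (R + r) :=
            fun h => h3 h.2
          rw [Set.indicator_of_notMem h4, Set.indicator_of_notMem h3]; ring
      · have h4 : ((y, x) : (Fin n → ℝ) × (Fin n → ℝ)) ∉ eb z R ×ˢ eb z (R + r) :=
            fun h => h1 h.1
        rw [Set.indicator_of_notMem h4, Set.indicator_of_notMem h1]; ring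
    · have h2' : ((y, x) : (Fin n → ℝ) × (Fin n → ℝ)) ∉
          {q : (Fin n → ℝ) × (Fin n → ℝ) | dsq q.1 q.2 ≤ r ^ 2} := h2
      rw [Set.indicator_of_notMem h2', Set.indicator_of_notMem h2]; ring
  have hi1 := hint.integral_prod_left
  have hi2 := hint.integral_prod_right
  simp only [Function.uncurry, e1] at hi1
  simp only [Function.uncurry, e2] at hi2
  refine ⟨?_, (integrable_indicator_iff (measurableSet_eb z R)).1 hi1,
    (integrable_indicator_iff (measurableSet_eb z (R + r))).1 hi2⟩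
  calc ∫ y in eb z R, ∫ x in eb y r, f x = ∫ y, ∫ x, G y x := by
        simp_rw [e1]; rw [integral_indicator (measurableSet_eb z R)]
    _ = ∫ x, ∫ y, G y x := integral_integral_swap hint
    _ = _ := by simp_rw [e2]; rw [integral_indicator (measurableSet_eb z (R + r))]

/-- Fubini: `∫_{A} ∫_{B_r(y)} f dx dy = ∫ f(x) |A ∩ B_r(x)| dx`. -/
lemma int_int_eb (hf : Continuous f) {z : Fin n → ℝ} (hR : 0 ≤ R) (hr : 0 ≤ r) :
    ∫ y in eb z R, ∫ x in eb y r, f x
      = ∫ x in eb z (R + r), f x * (volume (eb z R ∩ eb x r)).toReal :=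
  (int_int_eb_aux hf hR hr).1

lemma integrableOn_int_eb (hf : Continuous f) {z : Fin n → ℝ} (hR : 0 ≤ R) (hr : 0 ≤ r) :
    IntegrableOn (fun y => ∫ x in eb y r, f x) (eb z R) :=
  (int_int_eb_aux hf hR hr).2.1

/-- `∫_{y ∈ B_R} ∫_{B_r(y)} f ≤ |B_r| ∫_{B_{R+r}} f`. -/
lemma int_int_eb_le (hf : Continuous f) (h0 : ∀ x, 0 ≤ f x) {z : Fin n → ℝ} (hR : 0 ≤ R)
    (hr : 0 ≤ r) :
    ∫ y in eb z R, ∫ x in eb y r, f x ≤ vb n * r ^ n * ∫ x in eb z (R + r), f x := by
  rw [int_int_eb hf hR hr, ← integral_const_mul]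
  have hv : ∀ x, (volume (eb z R ∩ eb x r)).toReal ≤ vb n * r ^ n := fun x => by
    rw [← volume_eb x hr]
    exact ENNReal.toReal_mono (volume_eb_lt_top x r).ne (measure_mono Set.inter_subset_right)
  refine integral_mono_of_nonneg
    (Eventually.of_forall fun x => mul_nonneg (h0 x) ENNReal.toReal_nonneg)
    ((integrableOn_eb hf z (R + r)).const_mul _) (Eventually.of_forall fun x => ?_)
  simp only
  rw [mul_comm]
  exact mul_le_mul_of_nonneg_right (hv x) (h0 x)

/-- `|B_r| ∫_{B_R} f ≤ ∫_{y ∈ B_{R+r}} ∫_{B_r(y)} f`. -/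
lemma le_int_int_eb (hf : Continuous f) (h0 : ∀ x, 0 ≤ f x) {z : Fin n → ℝ} (hR : 0 ≤ R)
    (hr : 0 ≤ r) :
    vb n * r ^ n * ∫ x in eb z R, f x ≤ ∫ y in eb z (R + r), ∫ x in eb y r, f x := by
  have haux := int_int_eb_aux (f := f) (z := z) (R := R + r) (r := r) hf (by positivity) hr
  rw [haux.1, ← integral_const_mul]
  calc ∫ x in eb z R, vb n * r ^ n * f x
      ≤ ∫ x in eb z R, f x * (volume (eb z (R + r) ∩ eb x r)).toReal := by
        refine setIntegral_mono_on ((integrableOn_eb hf z R).const_mul _)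
          (haux.2.2.mono_set (eb_mono hR (by linarith))) (measurableSet_eb z R) (fun x hx => ?_)
        have : eb z (R + r) ∩ eb x r = eb x r :=
          Set.inter_eq_right.2 (eb_subset hr hR hx)
        rw [this, volume_eb x hr]
        exact le_of_eq (by ring)
    _ ≤ _ := setIntegral_mono_set haux.2.2
        (Eventually.of_forall fun x => mul_nonneg (h0 x) ENNReal.toReal_nonneg)
        (HasSubset.Subset.eventuallyLE (eb_mono hR (by linarith)))

/-- Covering estimate: if `∫_{B_r(y)} f ≤ A` for all centres `y` in `B_{R+r}(z)`, then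
`∫_{B_R(z)} f ≤ A ((R+r)/r)^n`. -/
lemma int_eb_le_of_local (hf : Continuous f) (h0 : ∀ x, 0 ≤ f x) {z : Fin n → ℝ} (hR : 0 ≤ R)
    (hr : 0 < r) {A : ℝ} (hA : ∀ y ∈ eb z (R + r), ∫ x in eb y r, f x ≤ A) :
    ∫ x in eb z R, f x ≤ A * ((R + r) / r) ^ n := by
  have h1 := le_int_int_eb hf h0 (z := z) hR hr.le
  have h2 : ∫ y in eb z (R + r), ∫ x in eb y r, f x ≤ ∫ y in eb z (R + r), A :=
    setIntegral_mono_on (integrableOn_int_eb hf (by positivity) hr.le)
      (integrableOn_const (volume_eb_lt_top _ _).ne) (measurableSet_eb _ _) hA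
  rw [setIntegral_const, smul_eq_mul, Measure.real, volume_eb z (by positivity)] at h2
  have hv := vb_pos n
  have h3 : vb n * r ^ n * ∫ x in eb z R, f x ≤ vb n * (R + r) ^ n * A := h1.trans h2
  have h4 : ∫ x in eb z R, f x ≤ (vb n * (R + r) ^ n * A) / (vb n * r ^ n) := by
    rw [le_div_iff₀ (by positivity)]; linarith
  refine h4.trans (le_of_eq ?_)
  rw [div_pow]
  field_simp

end Vale.Agent.P134.SM
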