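import Vale.Agent.P134.SM.Nu

set_option linter.all false

/-! Euclidean balls in `Fin n → ℝ`, smooth radial cut-offs, integration by parts for compactly
supported fields (also for fields that are smooth only near the support of the cut-off),
derivatives of `∫ φ(|x-y|²/R²) f` in `R`, averaging over balls. -/

namespace Vale.Agent.P134.SM

open Vale.Agent.P134 Filter Topology MeasureTheory
open scoped Pointwise

variable {n : ℕ} {f g u : (Fin n → ℝ) → ℝ} {x y z : Fin n → ℝ} {i j k : Fin n} {R r : ℝ}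

/-! ### Squared distance and Euclidean balls -/

/-- Squared Euclidean distance. -/
def dsq (y x : Fin n → ℝ) : ℝ := ∑ i, (x i - y i) ^ 2

lemma dsq_nonneg (y x : Fin n → ℝ) : 0 ≤ dsq y x := Finset.sum_nonneg fun _ _ => sq_nonneg _

lemma dsq_comm (y x : Fin n → ℝ) : dsq y x = dsq x y := Finset.sum_congr rfl fun _ _ => by ring

lemma dsq_self (y : Fin n → ℝ) : dsq y y = 0 := by simp [dsq]

lemma dsq_eq_esq (y x : Fin n → ℝ) : dsq y x = esq (x - y) := rfl

lemma dsq_contDiff (y : Fin n → ℝ) {k : WithTop ℕ∞} : ContDiff ℝ k (dsq y) := by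
  unfold dsq; fun_prop

lemma dsq_continuous (y : Fin n → ℝ) : Continuous (dsq y) := by
  unfold dsq; fun_prop

lemma dsq_continuous2 : Continuous (fun p : (Fin n → ℝ) × (Fin n → ℝ) => dsq p.1 p.2) := by
  unfold dsq; fun_prop

lemma sq_le_dsq (y x : Fin n → ℝ) (i : Fin n) : (x i - y i) ^ 2 ≤ dsq y x :=
  Finset.single_le_sum (f := fun i => (x i - y i) ^ 2) (fun _ _ => sq_nonneg _)
    (Finset.mem_univ i)

lemma dsq_shift (y x v : Fin n → ℝ) : dsq (y + v) (x + v) = dsq y x := by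
  unfold dsq
  refine Finset.sum_congr rfl fun i _ => ?_
  simp only [Pi.add_apply]; ring

lemma dsq_smul (c : ℝ) (y x : Fin n → ℝ) : dsq (c • y) (c • x) = c ^ 2 * dsq y x := by
  unfold dsq
  rw [Finset.mul_sum]
  refine Finset.sum_congr rfl fun i _ => ?_
  simp only [Pi.smul_apply, smul_eq_mul]; ring

lemma pd_dsq : pd i (dsq y) x = 2 * (x i - y i) := by
  have e : dsq y = fun z => ∑ j, (z j - y j) ^ 2 := rfl
  rw [e, pd_sum Finset.univ (F := fun j z => (z j - y j) ^ 2) (fun j _ => by fun_prop)]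
  have : ∀ j, pd i (fun z : Fin n → ℝ => (z j - y j) ^ 2) x
      = 2 * (x j - y j) * (if j = i then 1 else 0) := by
    intro j
    rw [pd_sq (by fun_prop), pd_sub (by fun_prop) (by fun_prop), pd_coord, pd_const]
    ring
  rw [Finset.sum_congr rfl fun j _ => this j]
  simp

lemma pd_dsq' : pd i (dsq y) = fun x => 2 * (x i - y i) := by
  funext x; exact pd_dsq

lemma pd_pd_dsq : pd j (pd i (dsq y)) x = if i = j then 2 else 0 := by
  rw [pd_dsq']
  have e : (fun x : Fin n → ℝ => 2 * (x i - y i)) = fun x => 2 * x i - 2 * y i := by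
    funext x; ring
  rw [e, pd_sub (by fun_prop) (by fun_prop), pd_const,
    pd_mul (f := fun _ => (2:ℝ)) (by fun_prop) (by fun_prop), pd_coord, pd_const]
  split_ifs <;> simp

lemma gs_dsq : gs (dsq y) x = 4 * dsq y x := by
  unfold gs
  simp_rw [pd_dsq]
  unfold dsq
  rw [Finset.mul_sum]
  exact Finset.sum_congr rfl fun _ _ => by ring

lemma lap_dsq : lap (dsq y) x = 2 * n := by
  unfold lap
  simp_rw [pd_pd_dsq]
  simp; ring

lemma sqrt_dsq_triangle (x y z : Fin n → ℝ) :
    Real.sqrt (dsq x z) ≤ Real.sqrt (dsq x y) + Real.sqrt (dsq y z) := by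
  have h : ∀ a b : Fin n → ℝ, Real.sqrt (dsq a b)
      = ‖(WithLp.toLp 2 b - WithLp.toLp 2 a : EuclideanSpace ℝ (Fin n))‖ := by
    intro a b
    rw [EuclideanSpace.norm_eq]
    congr 1
    unfold dsq
    refine Finset.sum_congr rfl fun i _ => ?_
    simp [Real.norm_eq_abs, sq_abs]
  rw [h, h, h]
  calc ‖(WithLp.toLp 2 z - WithLp.toLp 2 x : EuclideanSpace ℝ (Fin n))‖
      = ‖(WithLp.toLp 2 y - WithLp.toLp 2 x : EuclideanSpace ℝ (Fin n))
          + (WithLp.toLp 2 z - WithLp.toLp 2 y)‖ := by congr 1; abel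
    _ ≤ _ := norm_add_le _ _

/-- Closed Euclidean ball. -/
def eb (y : Fin n → ℝ) (R : ℝ) : Set (Fin n → ℝ) := {x | dsq y x ≤ R ^ 2}

lemma mem_eb : x ∈ eb y R ↔ dsq y x ≤ R ^ 2 := Iff.rfl

lemma mem_eb_comm : x ∈ eb y R ↔ y ∈ eb x R := by rw [mem_eb, mem_eb, dsq_comm]

lemma mem_eb_sqrt (hR : 0 ≤ R) : x ∈ eb y R ↔ Real.sqrt (dsq y x) ≤ R := by
  rw [mem_eb, Real.sqrt_le_left hR]

lemma self_mem_eb (y : Fin n → ℝ) (R : ℝ) : y ∈ eb y R := by
  rw [mem_eb, dsq_self]; positivity

lemma eb_mono (hr : 0 ≤ r) (h : r ≤ R) : eb y r ⊆ eb y R := fun x hx =>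
  le_trans (mem_eb.1 hx) (by gcongr)

lemma eb_subset (hr : 0 ≤ r) (hR : 0 ≤ R) (h : y ∈ eb z R) : eb y r ⊆ eb z (R + r) := by
  intro x hx
  rw [mem_eb_sqrt (by positivity)]
  rw [mem_eb_sqrt hR] at h
  rw [mem_eb_sqrt hr] at hx
  exact (sqrt_dsq_triangle z y x).trans (add_le_add h hx)

lemma abs_sub_le_of_mem_eb (hR : 0 ≤ R) (h : x ∈ eb y R) (i : Fin n) : |x i - y i| ≤ R := by
  rw [← abs_of_nonneg hR]
  exact sq_le_sq.1 ((sq_le_dsq y x i).trans h)

lemma isClosed_eb (y : Fin n → ℝ) (R : ℝ) : IsClosed (eb y R) :=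
  isClosed_le (dsq_continuous y) continuous_const

lemma isCompact_eb (y : Fin n → ℝ) (R : ℝ) : IsCompact (eb y R) := by
  have h : eb y R ⊆ Set.Icc (fun i => y i - |R|) (fun i => y i + |R|) := by
    intro x hx
    have hx' : x ∈ eb y |R| := by rw [mem_eb, sq_abs]; exact hx
    refine ⟨fun i => ?_, fun i => ?_⟩ <;>
      have := abs_le.1 (abs_sub_le_of_mem_eb (abs_nonneg R) hx' i) <;>
      simp only <;> linarith [this.1, this.2]
  exact isCompact_Icc.of_isClosed_subset (isClosed_eb y R) h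

lemma measurableSet_eb (y : Fin n → ℝ) (R : ℝ) : MeasurableSet (eb y R) :=
  (isClosed_eb y R).measurableSet

lemma volume_eb_lt_top (y : Fin n → ℝ) (R : ℝ) : volume (eb y R) < ⊤ :=
  (isCompact_eb y R).measure_lt_top

lemma volume_eb_translate (y : Fin n → ℝ) (R : ℝ) :
    volume (eb y R) = volume (eb (0 : Fin n → ℝ) R) := by
  have : eb y R = (fun x => x + (-y)) ⁻¹' (eb (0 : Fin n → ℝ) R) := by
    ext x
    simp only [Set.mem_preimage, mem_eb]
    have h := dsq_shift y x (-y)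
    rw [add_neg_cancel] at h
    rw [h]
  rw [this, measure_preimage_add_right]

/-- Volume of the unit ball. -/
noncomputable def vb (n : ℕ) : ℝ := (volume (eb (0 : Fin n → ℝ) 1)).toReal

lemma volume_eb (y : Fin n → ℝ) (hR : 0 ≤ R) : (volume (eb y R)).toReal = vb n * R ^ n := by
  rw [volume_eb_translate]
  rcases hR.eq_or_lt with h0 | h0
  · subst h0
    rcases Nat.eq_zero_or_pos n with hn | hn
    · subst hn
      have : eb (0 : Fin 0 → ℝ) 0 = eb 0 1 := by
        ext x; simp [mem_eb, dsq]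
      rw [this]; simp [vb]
    · have : eb (0 : Fin n → ℝ) 0 ⊆ {0} := by
        intro x hx
        rw [Set.mem_singleton_iff]
        funext i
        have := abs_sub_le_of_mem_eb le_rfl hx i
        simpa using this
      have hne : Nonempty (Fin n) := ⟨⟨0, hn⟩⟩
      have h0 : volume (eb (0 : Fin n → ℝ) 0) = 0 := by
        refine measure_mono_null this ?_
        simp
      rw [h0, zero_pow hn.ne', mul_zero]; simp
  · have : eb (0 : Fin n → ℝ) R = R • eb (0 : Fin n → ℝ) 1 := by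
      ext x
      rw [Set.mem_smul_set_iff_inv_smul_mem₀ h0.ne', mem_eb, mem_eb]
      have h := dsq_smul R⁻¹ (0 : Fin n → ℝ) x
      rw [smul_zero] at h
      rw [h, one_pow, inv_pow, inv_mul_le_iff₀ (by positivity), mul_one]
    rw [this, Measure.addHaar_smul, ENNReal.toReal_mul, vb]
    rw [ENNReal.toReal_ofReal (abs_nonneg _), Module.finrank_fin_fun,
      abs_of_nonneg (by positivity)]
    ring

lemma vb_pos (n : ℕ) : 0 < vb n := by
  have h : (0 : ENNReal) < volume (eb (0 : Fin n → ℝ) 1) := by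
    have ho : IsOpen {x : Fin n → ℝ | dsq 0 x < 1} :=
      isOpen_lt (dsq_continuous 0) continuous_const
    refine lt_of_lt_of_le (ho.measure_pos volume ⟨0, ?_⟩) (measure_mono ?_)
    · simp [dsq_self]
    · intro x hx; rw [mem_eb, one_pow]; exact le_of_lt hx
  exact ENNReal.toReal_pos h.ne' (volume_eb_lt_top _ _).ne

/-! ### The profile `chi` and the radial cut-offs `rc` -/

/-- Smooth profile: `1` for `s ≤ 1`, `0` for `s ≥ 4`. -/
noncomputable def chi (s : ℝ) : ℝ := Real.smoothTransition ((4 - s) / 3)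

lemma chi_contDiff {k : ℕ∞} : ContDiff ℝ k chi :=
  Real.smoothTransition.contDiff.comp (by fun_prop)

lemma chi_nonneg (s : ℝ) : 0 ≤ chi s := Real.smoothTransition.nonneg _

lemma chi_le_one (s : ℝ) : chi s ≤ 1 := Real.smoothTransition.le_one _

lemma chi_one {s : ℝ} (h : s ≤ 1) : chi s = 1 :=
  Real.smoothTransition.one_of_one_le (by linarith)

lemma chi_zero {s : ℝ} (h : 4 ≤ s) : chi s = 0 :=
  Real.smoothTransition.zero_of_nonpos (by linarith)

lemma chi_contDiff' {k : ℕ∞} : ContDiff ℝ k (deriv chi) := by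
  have h : ContDiff ℝ ((⊤ : ℕ∞) : WithTop ℕ∞) chi := chi_contDiff
  have := (contDiff_infty_iff_deriv.1 h).2
  exact this.of_le (by exact_mod_cast le_top)

lemma chi_deriv_lt {s : ℝ} (h : s < 1) : deriv chi s = 0 := by
  have : chi =ᶠ[𝓝 s] fun _ => 1 := by
    filter_upwards [Iio_mem_nhds h] with t ht using chi_one (le_of_lt ht)
  rw [this.deriv_eq]; simp

lemma chi_deriv_gt {s : ℝ} (h : 4 < s) : deriv chi s = 0 := by
  have : chi =ᶠ[𝓝 s] fun _ => 0 := by
    filter_upwards [Ioi_mem_nhds h] with t ht using chi_zero (le_of_lt ht)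
  rw [this.deriv_eq]; simp

lemma chi_antitone : Antitone chi := by
  intro a b hab
  unfold chi
  exact Real.smoothTransition.monotone (by linarith)

lemma chi_deriv_nonpos (s : ℝ) : deriv chi s ≤ 0 := chi_antitone.deriv_nonpos

lemma chi_deriv_support {s : ℝ} (h : deriv chi s ≠ 0) : 1 ≤ s ∧ s ≤ 4 := by
  constructor
  · by_contra h1; exact h (chi_deriv_lt (not_le.1 h1))
  · by_contra h1; exact h (chi_deriv_gt (not_le.1 h1))

lemma chi_deriv2_support {s : ℝ} (h : deriv (deriv chi) s ≠ 0) : 1 ≤ s ∧ s ≤ 4 := by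
  constructor
  · by_contra h1
    apply h
    have : deriv chi =ᶠ[𝓝 s] fun _ => 0 := by
      filter_upwards [Iio_mem_nhds (not_le.1 h1)] with t ht using chi_deriv_lt ht
    rw [this.deriv_eq]; simp
  · by_contra h1
    apply h
    have : deriv chi =ᶠ[𝓝 s] fun _ => 0 := by
      filter_upwards [Ioi_mem_nhds (not_le.1 h1)] with t ht using chi_deriv_gt ht
    rw [this.deriv_eq]; simp

lemma exists_chi_bound : ∃ C : ℝ, 1 ≤ C ∧ (∀ s, |deriv chi s| ≤ C) ∧
    ∀ s, |deriv (deriv chi) s| ≤ C := by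
  have h1 : Continuous (deriv chi) := (chi_contDiff' (k := 0)).continuous
  have h2 : Continuous (deriv (deriv chi)) :=
    (chi_contDiff' (k := 1)).continuous_deriv le_rfl
  obtain ⟨C1, hC1⟩ := isCompact_Icc.exists_bound_of_continuousOn (s := Set.Icc (1:ℝ) 4)
    h1.continuousOn
  obtain ⟨C2, hC2⟩ := isCompact_Icc.exists_bound_of_continuousOn (s := Set.Icc (1:ℝ) 4)
    h2.continuousOn
  refine ⟨max 1 (max C1 C2), le_max_left _ _, fun s => ?_, fun s => ?_⟩
  · by_cases h : deriv chi s = 0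
    · rw [h, abs_zero]; exact le_trans zero_le_one (le_max_left _ _)
    · have := hC1 s (chi_deriv_support h)
      rw [Real.norm_eq_abs] at this
      exact this.trans ((le_max_left _ _).trans (le_max_right _ _))
  · by_cases h : deriv (deriv chi) s = 0
    · rw [h, abs_zero]; exact le_trans zero_le_one (le_max_left _ _)
    · have := hC2 s (chi_deriv2_support h)
      rw [Real.norm_eq_abs] at this
      exact this.trans ((le_max_right _ _).trans (le_max_right _ _))

/-- Radial cut-off: `1` on the ball of radius `R` about `y`, `0` off the ball of radius `2R`. -/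
noncomputable def rc (y : Fin n → ℝ) (R : ℝ) (x : Fin n → ℝ) : ℝ := chi (dsq y x / R ^ 2)

lemma rc_contDiff (y : Fin n → ℝ) (R : ℝ) {k : ℕ∞} : ContDiff ℝ k (rc y R) :=
  chi_contDiff.comp ((dsq_contDiff y).div_const _)

lemma rc_continuous (y : Fin n → ℝ) (R : ℝ) : Continuous (rc y R) :=
  (rc_contDiff y R (k := 0)).continuous

lemma rc_nonneg (y : Fin n → ℝ) (R : ℝ) (x) : 0 ≤ rc y R x := chi_nonneg _
lemma rc_le_one (y : Fin n → ℝ) (R : ℝ) (x) : rc y R x ≤ 1 := chi_le_one _

lemma rc_one (hR : 0 < R) (h : x ∈ eb y R) : rc y R x = 1 :=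
  chi_one (by rw [div_le_one (by positivity)]; exact h)

lemma rc_zero (hR : 0 < R) (h : x ∉ eb y (2 * R)) : rc y R x = 0 := by
  refine chi_zero ?_
  rw [le_div_iff₀ (by positivity)]
  have : (2 * R) ^ 2 < dsq y x := not_le.1 h
  nlinarith

lemma rc_tsupport (hR : 0 < R) : tsupport (rc y R) ⊆ eb y (2 * R) := by
  refine closure_minimal ?_ (isClosed_eb _ _)
  intro x hx
  by_contra h
  exact hx (rc_zero hR h)

lemma rc_hasCompactSupport (hR : 0 < R) : HasCompactSupport (rc y R) :=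
  (isCompact_eb y (2 * R)).of_isClosed_subset (isClosed_tsupport _) (rc_tsupport hR)

lemma pd_rc (y : Fin n → ℝ) (R : ℝ) (x) (i : Fin n) :
    pd i (rc y R) x = deriv chi (dsq y x / R ^ 2) * (2 * (x i - y i) / R ^ 2) := by
  have h : DifferentiableAt ℝ (fun x => dsq y x / R ^ 2) x := by
    unfold dsq; fun_prop
  have e : rc y R = fun x => chi (dsq y x / R ^ 2) := rfl
  rw [e, pd_comp (h := chi) ((chi_contDiff (k := 1)).differentiable (by norm_num) _) h]
  congr 1
  have e2 : (fun x => dsq y x / R ^ 2) = fun x => (R ^ 2)⁻¹ * dsq y x := by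
    funext x; ring
  rw [e2, pd_mul (f := fun _ => (R ^ 2)⁻¹) (by fun_prop)
    ((dsq_contDiff y (k := 1)).differentiable (by norm_num) x), pd_const, pd_dsq]
  ring

lemma pd_pd_rc (y : Fin n → ℝ) (R : ℝ) (x) (i j : Fin n) :
    pd j (pd i (rc y R)) x
      = deriv (deriv chi) (dsq y x / R ^ 2) * (2 * (x i - y i) / R ^ 2) * (2 * (x j - y j) / R ^ 2)
        + deriv chi (dsq y x / R ^ 2) * (if i = j then 2 / R ^ 2 else 0) := by
  have h : DifferentiableAt ℝ (fun x => dsq y x / R ^ 2) x := by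
    unfold dsq; fun_prop
  have e : pd i (rc y R) = fun x => deriv chi (dsq y x / R ^ 2) * (2 * (x i - y i) / R ^ 2) := by
    funext x; exact pd_rc y R x i
  have h1 : Differentiable ℝ (deriv chi) := (chi_contDiff' (k := 1)).differentiable (by norm_num)
  have e2 : (fun x => dsq y x / R ^ 2) = fun x => (R ^ 2)⁻¹ * dsq y x := by
    funext x; ring
  have e3 : pd j (fun x => dsq y x / R ^ 2) x = 2 * (x j - y j) / R ^ 2 := by
    rw [e2, pd_mul (f := fun _ => (R ^ 2)⁻¹) (by fun_prop)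
      ((dsq_contDiff y (k := 1)).differentiable (by norm_num) x), pd_const, pd_dsq]
    ring
  have e4 : pd j (fun x : Fin n → ℝ => 2 * (x i - y i) / R ^ 2) x
      = if i = j then 2 / R ^ 2 else 0 := by
    have : (fun x : Fin n → ℝ => 2 * (x i - y i) / R ^ 2)
        = fun x => (2 / R ^ 2) * x i - (2 / R ^ 2) * y i := by funext x; ring
    rw [this, pd_sub (by fun_prop) (by fun_prop), pd_const,
      pd_mul (f := fun _ => (2 / R ^ 2 : ℝ)) (by fun_prop) (by fun_prop), pd_coord, pd_const]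
    split_ifs <;> simp
  have h5 : DifferentiableAt ℝ (fun x => deriv chi (dsq y x / R ^ 2)) x := (h1 _).comp x h
  rw [e, pd_mul h5 (by fun_prop), pd_comp (h := deriv chi) (h1 _) h, e3, e4]
  ring

lemma pd_rc_support (hR : 0 < R) (h : pd i (rc y R) x ≠ 0) :
    R ^ 2 ≤ dsq y x ∧ dsq y x ≤ (2 * R) ^ 2 := by
  rw [pd_rc] at h
  have := chi_deriv_support (left_ne_zero_of_mul h)
  rw [le_div_iff₀ (by positivity), div_le_iff₀ (by positivity)] at this
  constructor
  · linarith [this.1]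
  · nlinarith [this.2]

lemma pd_rc_zero (hR : 0 < R) (h : x ∉ eb y (2 * R)) : pd i (rc y R) x = 0 := by
  by_contra h1
  exact h (pd_rc_support hR h1).2

theorem exists_rc_bound (n : ℕ) : ∃ C : ℝ, 1 ≤ C ∧ ∀ (y : Fin n → ℝ) (R : ℝ) (x : Fin n → ℝ),
    0 < R → (∀ i, |pd i (rc y R) x| ≤ C / R) ∧ gs (rc y R) x ≤ C / R ^ 2 ∧
      (∀ i j, |pd j (pd i (rc y R)) x| ≤ C / R ^ 2) ∧ |lap (rc y R) x| ≤ C / R ^ 2 := by
  obtain ⟨C, hC, hC1, hC2⟩ := exists_chi_bound
  have hC0 : 0 ≤ C := zero_le_one.trans hC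
  refine ⟨(n + 1) * (20 * C ^ 2), ?_, ?_⟩
  · have : (0:ℝ) ≤ n := Nat.cast_nonneg n
    nlinarith [mul_nonneg this (sq_nonneg C)]
  intro y R x hR
  have hn : (0:ℝ) ≤ n := Nat.cast_nonneg n
  have hCC : C ≤ C ^ 2 := by nlinarith
  have hk : ∀ i, |deriv chi (dsq y x / R ^ 2) * (2 * (x i - y i) / R ^ 2)| ≤ 4 * C / R := by
    intro i
    by_cases h : deriv chi (dsq y x / R ^ 2) = 0
    · rw [h, zero_mul, abs_zero]; positivity
    · have h4 := (chi_deriv_support h).2
      rw [div_le_iff₀ (by positivity)] at h4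
      have hx : x ∈ eb y (2 * R) := by rw [mem_eb]; nlinarith
      have hi := abs_sub_le_of_mem_eb (by positivity) hx i
      rw [abs_mul, abs_div, abs_mul, abs_of_pos (show (0:ℝ) < 2 by norm_num),
        abs_of_pos (show 0 < R ^ 2 by positivity)]
      calc |deriv chi (dsq y x / R ^ 2)| * (2 * |x i - y i| / R ^ 2)
          ≤ C * (2 * (2 * R) / R ^ 2) := by gcongr; exact hC1 _
        _ = 4 * C / R := by field_simp; ring
  have hk2 : ∀ i j, |deriv (deriv chi) (dsq y x / R ^ 2) * (2 * (x i - y i) / R ^ 2)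
      * (2 * (x j - y j) / R ^ 2)| ≤ 16 * C / R ^ 2 := by
    intro i j
    by_cases h : deriv (deriv chi) (dsq y x / R ^ 2) = 0
    · rw [h, zero_mul, zero_mul, abs_zero]; positivity
    · have h4 := (chi_deriv2_support h).2
      rw [div_le_iff₀ (by positivity)] at h4
      have hx : x ∈ eb y (2 * R) := by rw [mem_eb]; nlinarith
      have hi := abs_sub_le_of_mem_eb (by positivity) hx i
      have hj := abs_sub_le_of_mem_eb (by positivity) hx j
      rw [abs_mul, abs_mul, abs_div, abs_div, abs_mul, abs_mul,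
        abs_of_pos (show (0:ℝ) < 2 by norm_num), abs_of_pos (show 0 < R ^ 2 by positivity)]
      calc |deriv (deriv chi) (dsq y x / R ^ 2)| * (2 * |x i - y i| / R ^ 2)
            * (2 * |x j - y j| / R ^ 2)
          ≤ C * (2 * (2 * R) / R ^ 2) * (2 * (2 * R) / R ^ 2) := by gcongr; exact hC2 _
        _ = 16 * C / R ^ 2 := by field_simp; ring
  have hpp : ∀ i j, |pd j (pd i (rc y R)) x| ≤ 18 * C / R ^ 2 := by
    intro i j
    rw [pd_pd_rc]
    refine (abs_add_le _ _).trans ?_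
    have h3 : |deriv chi (dsq y x / R ^ 2) * (if i = j then 2 / R ^ 2 else 0)|
        ≤ 2 * C / R ^ 2 := by
      rw [abs_mul]
      have h5 : |(if i = j then 2 / R ^ 2 else 0 : ℝ)| ≤ 2 / R ^ 2 := by
        split_ifs
        · rw [abs_of_pos (by positivity)]
        · rw [abs_zero]; positivity
      calc |deriv chi (dsq y x / R ^ 2)| * |(if i = j then 2 / R ^ 2 else 0 : ℝ)|
          ≤ C * (2 / R ^ 2) := by gcongr; exact hC1 _
        _ = 2 * C / R ^ 2 := by ring
    calc _ ≤ 16 * C / R ^ 2 + 2 * C / R ^ 2 := add_le_add (hk2 i j) h3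
      _ = 18 * C / R ^ 2 := by ring
  refine ⟨fun i => ?_, ?_, fun i j => ?_, ?_⟩
  · rw [pd_rc]
    refine (hk i).trans ?_
    rw [div_le_div_iff_of_pos_right hR]
    nlinarith [mul_nonneg hn (sq_nonneg C)]
  · unfold gs
    calc ∑ i, pd i (rc y R) x ^ 2 ≤ ∑ i : Fin n, (4 * C / R) ^ 2 := by
          refine Finset.sum_le_sum fun i _ => ?_
          rw [pd_rc]
          exact sq_le_sq' (abs_le.1 (hk i)).1 (abs_le.1 (hk i)).2
      _ = n * (16 * C ^ 2) / R ^ 2 := by
          rw [Finset.sum_const, Finset.card_univ, Fintype.card_fin, nsmul_eq_mul]; ring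
      _ ≤ _ := by
          rw [div_le_div_iff_of_pos_right (by positivity)]
          nlinarith [mul_nonneg hn (sq_nonneg C), sq_nonneg C]
  · refine (hpp i j).trans ?_
    rw [div_le_div_iff_of_pos_right (by positivity)]
    nlinarith [mul_nonneg hn (sq_nonneg C)]
  · unfold lap
    calc |∑ i, pd i (pd i (rc y R)) x| ≤ ∑ i, |pd i (pd i (rc y R)) x| :=
          Finset.abs_sum_le_sum_abs _ _
      _ ≤ ∑ i : Fin n, 18 * C / R ^ 2 := Finset.sum_le_sum fun i _ => hpp i i
      _ = n * (18 * C) / R ^ 2 := by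
          rw [Finset.sum_const, Finset.card_univ, Fintype.card_fin, nsmul_eq_mul]; ring
      _ ≤ _ := by
          rw [div_le_div_iff_of_pos_right (by positivity)]
          nlinarith [mul_nonneg hn (sq_nonneg C), sq_nonneg C, mul_le_mul_of_nonneg_left hCC hn]

end Vale.Agent.P134.SM
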