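import Vale.Agent.P134.SM.Ident

set_option linter.all false

/-! Local Laplacian calculus and the identities for `w = |∇u|`, `ν = ∇u/|∇u|`, `τ = ν·a`,
`s = x·∇u`, `s/w` on the set `{∇u ≠ 0}`. -/

namespace Vale.Agent.P134.SM

open Vale.Agent.P134 Filter Topology

variable {n : ℕ} {f g u : (Fin n → ℝ) → ℝ} {x a : Fin n → ℝ} {i j k : Fin n}

/-! ### Local calculus -/

lemma pd_congr (h : f =ᶠ[𝓝 x] g) : pd i f x = pd i g x := by
  unfold pd; rw [h.fderiv_eq]

lemma pd_congr_ev (h : f =ᶠ[𝓝 x] g) : pd i f =ᶠ[𝓝 x] pd i g := by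
  filter_upwards [h.eventuallyEq_nhds] with y hy
  exact pd_congr hy

lemma lap_congr (h : f =ᶠ[𝓝 x] g) : lap f x = lap g x := by
  unfold lap
  exact Finset.sum_congr rfl fun i _ => pd_congr (pd_congr_ev h)

lemma cda_pd {m : ℕ} (hf : ContDiffAt ℝ (m + 1) f x) : ContDiffAt ℝ m (pd i f) x := by
  unfold pd
  exact (hf.fderiv_right (m := (m : WithTop ℕ∞)) (by norm_cast)).clm_apply contDiffAt_const

lemma cda_pd1 (hf : ContDiffAt ℝ 2 f x) : ContDiffAt ℝ 1 (pd i f) x := by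
  have : ContDiffAt ℝ ((1:ℕ) + 1 : WithTop ℕ∞) f x := by
    have e : ((1:ℕ) + 1 : WithTop ℕ∞) = 2 := by norm_num
    rw [e]; exact hf
  exact_mod_cast cda_pd (m := 1) this

lemma da (hf : ContDiffAt ℝ 2 f x) : DifferentiableAt ℝ f x := hf.differentiableAt (by norm_num)
lemma da_pd (hf : ContDiffAt ℝ 2 f x) (i : Fin n) : DifferentiableAt ℝ (pd i f) x :=
  (cda_pd1 hf).differentiableAt (by norm_num)
lemma da_ev (hf : ContDiffAt ℝ 2 f x) : ∀ᶠ y in 𝓝 x, DifferentiableAt ℝ f y := by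
  filter_upwards [hf.eventually (by simp)] with y hy
  exact da hy

lemma lap_add_at (hf : ContDiffAt ℝ 2 f x) (hg : ContDiffAt ℝ 2 g x) :
    lap (fun y => f y + g y) x = lap f x + lap g x := by
  unfold lap
  rw [← Finset.sum_add_distrib]
  refine Finset.sum_congr rfl fun i _ => ?_
  have e : pd i (fun y => f y + g y) =ᶠ[𝓝 x] fun y => pd i f y + pd i g y := by
    filter_upwards [da_ev hf, da_ev hg] with y h1 h2
    exact pd_add h1 h2
  rw [pd_congr e, pd_add (da_pd hf i) (da_pd hg i)]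

lemma lap_mul_at (hf : ContDiffAt ℝ 2 f x) (hg : ContDiffAt ℝ 2 g x) :
    lap (fun y => f y * g y) x = lap f x * g x + 2 * gg f g x + f x * lap g x := by
  unfold lap gg
  rw [Finset.mul_sum, Finset.sum_mul, Finset.mul_sum, ← Finset.sum_add_distrib,
    ← Finset.sum_add_distrib]
  refine Finset.sum_congr rfl fun i _ => ?_
  have e : pd i (fun y => f y * g y) =ᶠ[𝓝 x] fun y => pd i f y * g y + f y * pd i g y := by
    filter_upwards [da_ev hf, da_ev hg] with y h1 h2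
    rw [pd_mul h1 h2]; try ring
  have h1 : DifferentiableAt ℝ (fun y => pd i f y * g y) x := (da_pd hf i).mul (da hg)
  have h2 : DifferentiableAt ℝ (fun y => f y * pd i g y) x := (da hf).mul (da_pd hg i)
  rw [pd_congr e, pd_add h1 h2, pd_mul (da_pd hf i) (da hg), pd_mul (da hf) (da_pd hg i)]
  ring

lemma lap_sq_at (hf : ContDiffAt ℝ 2 f x) :
    lap (fun y => f y ^ 2) x = 2 * f x * lap f x + 2 * gs f x := by
  have e : (fun y => f y ^ 2) = fun y => f y * f y := by funext y; ring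
  rw [e, lap_mul_at hf hf, gg_self]; ring

lemma lap_comp_at {h h1 h2 : ℝ → ℝ} (hf : ContDiffAt ℝ 2 f x)
    (hh : ∀ᶠ t in 𝓝 (f x), HasDerivAt h (h1 t) t) (hh1 : HasDerivAt h1 (h2 (f x)) (f x)) :
    (∀ i, pd i (fun y => h (f y)) x = h1 (f x) * pd i f x) ∧
    lap (fun y => h (f y)) x = h1 (f x) * lap f x + h2 (f x) * gs f x := by
  have hev : ∀ᶠ y in 𝓝 x, HasDerivAt h (h1 (f y)) (f y) :=
    (da hf).continuousAt.eventually hh
  have e : ∀ i, pd i (fun y => h (f y)) =ᶠ[𝓝 x] fun y => h1 (f y) * pd i f y := by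
    intro i
    filter_upwards [hev, da_ev hf] with y hy hd
    rw [pd_comp hy.differentiableAt hd, hy.deriv]; try ring
  refine ⟨fun i => (e i).self_of_nhds, ?_⟩
  unfold lap gs
  rw [Finset.mul_sum, Finset.mul_sum, ← Finset.sum_add_distrib]
  refine Finset.sum_congr rfl fun i _ => ?_
  have hd : DifferentiableAt ℝ (fun y => h1 (f y)) x := hh1.differentiableAt.comp x (da hf)
  rw [pd_congr (e i), pd_mul hd (da_pd hf i), pd_comp hh1.differentiableAt (da hf), hh1.deriv]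
  ring

/-- Divergence of `b² ∇(f/b)`. -/
lemma div_sq_grad_quot {b : (Fin n → ℝ) → ℝ} (hf : ContDiffAt ℝ 2 f x) (hb : ContDiffAt ℝ 2 b x)
    (h0 : b x ≠ 0) :
    (∀ᶠ y in 𝓝 x, ∀ k, b y ^ 2 * pd k (fun z => f z / b z) y = b y * pd k f y - f y * pd k b y) ∧
    ∑ k, pd k (fun y => b y ^ 2 * pd k (fun z => f z / b z) y) x = b x * lap f x - f x * lap b x := by
  have hb0 : ∀ᶠ y in 𝓝 x, b y ≠ 0 := (da hb).continuousAt.eventually_ne h0
  have hev : ∀ᶠ y in 𝓝 x, ∀ k,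
      b y ^ 2 * pd k (fun z => f z / b z) y = b y * pd k f y - f y * pd k b y := by
    filter_upwards [hb0, da_ev hf, da_ev hb] with y h0y h1 h2 k
    rw [pd_div h1 h2 h0y]
    field_simp
  refine ⟨hev, ?_⟩
  unfold lap
  rw [Finset.mul_sum, Finset.mul_sum, ← Finset.sum_sub_distrib]
  refine Finset.sum_congr rfl fun k _ => ?_
  have e : (fun y => b y ^ 2 * pd k (fun z => f z / b z) y)
      =ᶠ[𝓝 x] fun y => b y * pd k f y - f y * pd k b y := by
    filter_upwards [hev] with y hy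
    exact hy k
  have h1 : DifferentiableAt ℝ (fun y => b y * pd k f y) x := (da hb).mul (da_pd hf k)
  have h2 : DifferentiableAt ℝ (fun y => f y * pd k b y) x := (da hf).mul (da_pd hb k)
  rw [pd_congr e, pd_sub h1 h2, pd_mul (da hb) (da_pd hf k), pd_mul (da hf) (da_pd hb k)]
  ring

/-! ### The modulus of the gradient -/

/-- `w = |∇u|`. -/
noncomputable def wn (u : (Fin n → ℝ) → ℝ) (x : Fin n → ℝ) : ℝ := Real.sqrt (gs u x)

/-- The unit normal `ν = ∇u/|∇u|`. -/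
noncomputable def nu (u : (Fin n → ℝ) → ℝ) (i : Fin n) (x : Fin n → ℝ) : ℝ := pd i u x / wn u x

/-- `τ_a = ν·a`. -/
noncomputable def tau (a : Fin n → ℝ) (u : (Fin n → ℝ) → ℝ) (x : Fin n → ℝ) : ℝ :=
  dd a u x / wn u x

/-- `|∇ν|²`. -/
noncomputable def dn (u : (Fin n → ℝ) → ℝ) (x : Fin n → ℝ) : ℝ := ∑ i, ∑ j, pd j (nu u i) x ^ 2

/-- The mean curvature `H = div ν`. -/
noncomputable def mc (u : (Fin n → ℝ) → ℝ) (x : Fin n → ℝ) : ℝ := ∑ i, pd i (nu u i) x

lemma wn_nonneg (u : (Fin n → ℝ) → ℝ) (x : Fin n → ℝ) : 0 ≤ wn u x := Real.sqrt_nonneg _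
lemma wn_sq (u : (Fin n → ℝ) → ℝ) (x : Fin n → ℝ) : wn u x ^ 2 = gs u x :=
  Real.sq_sqrt (gs_nonneg u x)
lemma wn_pos (h : 0 < gs u x) : 0 < wn u x := Real.sqrt_pos.mpr h
lemma dn_nonneg (u : (Fin n → ℝ) → ℝ) (x : Fin n → ℝ) : 0 ≤ dn u x :=
  Finset.sum_nonneg fun _ _ => Finset.sum_nonneg fun _ _ => sq_nonneg _

lemma Sol.gs_nat (hu : Sol u) (m : ℕ) : ContDiff ℝ m (gs u) :=
  gs_contDiff (m := m) (by exact_mod_cast Sol.contDiff_nat hu (m + 1))

lemma Sol.wn_cda (hu : Sol u) (h : 0 < gs u x) (m : ℕ) : ContDiffAt ℝ m (wn u) x :=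
  (Sol.gs_nat hu m).contDiffAt.sqrt h.ne'

lemma Sol.wn_c2 (hu : Sol u) (h : 0 < gs u x) : ContDiffAt ℝ 2 (wn u) x := by
  exact_mod_cast Sol.wn_cda hu h 2

lemma Sol.ev_pos (hu : Sol u) (h : 0 < gs u x) : ∀ᶠ y in 𝓝 x, 0 < gs u y :=
  (Sol.gs_nat hu 0).continuous.continuousAt.eventually (lt_mem_nhds h)

lemma Sol.nu_cda (hu : Sol u) (h : 0 < gs u x) (i : Fin n) (m : ℕ) :
    ContDiffAt ℝ m (nu u i) x := by
  unfold nu
  exact (Sol.pd_inf hu i m).contDiffAt.div (Sol.wn_cda hu h m) (wn_pos h).ne'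

lemma Sol.nu_c2 (hu : Sol u) (h : 0 < gs u x) (i : Fin n) : ContDiffAt ℝ 2 (nu u i) x := by
  exact_mod_cast Sol.nu_cda hu h i 2

lemma sum_nu_sq (h : 0 < gs u x) : ∑ i, nu u i x ^ 2 = 1 := by
  unfold nu
  simp_rw [div_pow, wn_sq]
  rw [← Finset.sum_div]
  exact div_self h.ne'

lemma pd_eq_wn_mul_nu (h : 0 < gs u x) (i : Fin n) : pd i u x = wn u x * nu u i x := by
  unfold nu
  have := (wn_pos h).ne'
  field_simp

lemma Sol.pd_wn (hu : Sol u) (h : 0 < gs u x) (k : Fin n) :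
    wn u x * pd k (wn u) x = ∑ i, pd i u x * pd k (pd i u) x := by
  have hw := Sol.wn_c2 hu h
  have e : gs u =ᶠ[𝓝 x] fun y => wn u y ^ 2 := Eventually.of_forall fun y => (wn_sq u y).symm
  have h1 : pd k (gs u) x = 2 * wn u x * pd k (wn u) x := by
    rw [pd_congr e, pd_sq (da hw)]
  have h2 := pd_gs hu.c2 k x
  linarith

/-- `∇w = D²u ν`. -/
lemma Sol.pd_wn' (hu : Sol u) (h : 0 < gs u x) (k : Fin n) :
    pd k (wn u) x = ∑ i, nu u i x * pd k (pd i u) x := by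
  have h1 := Sol.pd_wn hu h k
  have h2 := (wn_pos h).ne'
  have h3 : ∑ i, pd i u x * pd k (pd i u) x = wn u x * ∑ i, nu u i x * pd k (pd i u) x := by
    rw [Finset.mul_sum]
    refine Finset.sum_congr rfl fun i _ => ?_
    rw [pd_eq_wn_mul_nu h i]; ring
  rw [h3] at h1
  exact mul_left_cancel₀ h2 h1

/-- `∇D = 2W'∇u - 2w∇w`. -/
lemma Sol.pd_defi' (hu : Sol u) (h : 0 < gs u x) (k : Fin n) :
    pd k (defi u) x = 2 * (u x ^ 3 - u x) * pd k u x - 2 * wn u x * pd k (wn u) x := by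
  rw [Sol.pd_defi hu, mul_assoc 2 (wn u x), Sol.pd_wn hu h]

/-- `w ∂_j ν_i = u_ij - ν_i w_j`. -/
lemma Sol.pd_nu (hu : Sol u) (h : 0 < gs u x) (i j : Fin n) :
    wn u x * pd j (nu u i) x = pd j (pd i u) x - nu u i x * pd j (wn u) x := by
  have hw := Sol.wn_c2 hu h
  have h0 := (wn_pos h).ne'
  have e : pd j (nu u i) x = pd j (fun y => pd i u y / wn u y) x := rfl
  rw [e, pd_div (dif_pd hu.c2 i x) (da hw) h0]
  unfold nu
  field_simp

/-- `w²|∇ν|² = |D²u|² - |∇w|²`. -/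
lemma Sol.wn_sq_dn (hu : Sol u) (h : 0 < gs u x) :
    wn u x ^ 2 * dn u x = hs u x - gs (wn u) x := by
  unfold dn
  rw [Finset.mul_sum]
  have e : ∀ i, wn u x ^ 2 * ∑ j, pd j (nu u i) x ^ 2
      = ∑ j, (pd j (pd i u) x - nu u i x * pd j (wn u) x) ^ 2 := by
    intro i
    rw [Finset.mul_sum]
    refine Finset.sum_congr rfl fun j _ => ?_
    rw [← Sol.pd_nu hu h, mul_pow]
  rw [Finset.sum_congr rfl fun i _ => e i]
  have e2 : ∀ i j, (pd j (pd i u) x - nu u i x * pd j (wn u) x) ^ 2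
      = pd j (pd i u) x ^ 2 - 2 * (pd j (wn u) x * (nu u i x * pd j (pd i u) x))
        + nu u i x ^ 2 * pd j (wn u) x ^ 2 := by
    intro i j; ring
  simp_rw [e2, Finset.sum_add_distrib, Finset.sum_sub_distrib]
  have s1 : ∑ i, ∑ j, pd j (pd i u) x ^ 2 = hs u x := by
    unfold hs; rw [Finset.sum_comm]
  have s2 : ∑ i, ∑ j, 2 * (pd j (wn u) x * (nu u i x * pd j (pd i u) x)) = 2 * gs (wn u) x := by
    rw [Finset.sum_comm]
    unfold gs
    rw [Finset.mul_sum]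
    refine Finset.sum_congr rfl fun j _ => ?_
    rw [← Finset.mul_sum, ← Finset.mul_sum, ← Sol.pd_wn' hu h]
    ring
  have s3 : ∑ i, ∑ j, nu u i x ^ 2 * pd j (wn u) x ^ 2 = gs (wn u) x := by
    rw [Finset.sum_comm]
    unfold gs
    refine Finset.sum_congr rfl fun j _ => ?_
    rw [← Finset.sum_mul, sum_nu_sq h, one_mul]
  rw [s1, s2, s3]; ring

/-- `L w = w |∇ν|²`. -/
lemma Sol.lap_wn (hu : Sol u) (h : 0 < gs u x) :
    lap (wn u) x = (3 * u x ^ 2 - 1) * wn u x + wn u x * dn u x := by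
  have hw := Sol.wn_c2 hu h
  have h0 := (wn_pos h).ne'
  have e : gs u =ᶠ[𝓝 x] fun y => wn u y ^ 2 := Eventually.of_forall fun y => (wn_sq u y).symm
  have h1 : lap (gs u) x = 2 * wn u x * lap (wn u) x + 2 * gs (wn u) x := by
    rw [lap_congr e, lap_sq_at hw]
  have h2 := Sol.lap_gs hu x
  have h3 := Sol.wn_sq_dn hu h
  have h4 := wn_sq u x
  have h5 : wn u x * lap (wn u) x
      = wn u x * ((3 * u x ^ 2 - 1) * wn u x + wn u x * dn u x) := by
    have : 2 * (wn u x * lap (wn u) x) = 2 * hs u x + 2 * (3 * u x ^ 2 - 1) * gs u x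
        - 2 * gs (wn u) x := by linarith
    rw [← h4] at this
    linear_combination (1/2) * this - h3
  exact mul_left_cancel₀ h0 h5

/-- Master identity: `div (w²∇(f/w)) = w (Δf - W''f) - w²|∇ν|² (f/w)`. -/
lemma Sol.div_quot (hu : Sol u) (h : 0 < gs u x) (hf : ContDiffAt ℝ 2 f x) :
    (∀ᶠ y in 𝓝 x, ∀ k, wn u y ^ 2 * pd k (fun z => f z / wn u z) y
      = wn u y * pd k f y - f y * pd k (wn u) y) ∧
    ∑ k, pd k (fun y => wn u y ^ 2 * pd k (fun z => f z / wn u z) y) x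
      = wn u x * (lap f x - (3 * u x ^ 2 - 1) * f x) - wn u x ^ 2 * dn u x * (f x / wn u x) := by
  have h0 := (wn_pos h).ne'
  obtain ⟨h1, h2⟩ := div_sq_grad_quot hf (Sol.wn_c2 hu h) h0
  refine ⟨h1, ?_⟩
  rw [h2, Sol.lap_wn hu h]
  field_simp
  ring

lemma dd_c2 (hu : Sol u) (a : Fin n → ℝ) (m : ℕ) : ContDiff ℝ m (dd a u) := by
  unfold dd
  exact ContDiff.sum fun i _ => contDiff_const.mul (Sol.pd_inf hu i m)

lemma Sol.lap_dd (hu : Sol u) (a x : Fin n → ℝ) :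
    lap (dd a u) x = (3 * u x ^ 2 - 1) * dd a u x := by
  have e : dd a u = fun y => ∑ i, a i * pd i u y := rfl
  have e2 : lap (dd a u) x = ∑ i, lap (fun y => a i * pd i u y) x := by
    rw [e]
    exact lap_sum (F := fun i y => a i * pd i u y) Finset.univ
      (fun i => contDiff_const.mul (Sol.pd_c2 hu i)) x
  rw [e2]
  have e3 : ∀ i, lap (fun y => a i * pd i u y) x = (3 * u x ^ 2 - 1) * (a i * pd i u x) := by
    intro i
    rw [lap_smul _ (Sol.pd_c2 hu i), Sol.lap_pd hu]; ring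
  rw [Finset.sum_congr rfl fun i _ => e3 i, ← Finset.mul_sum]
  rfl

/-- `div (w²∇τ_a) = -w²|∇ν|²τ_a`. -/
lemma Sol.div_tau (hu : Sol u) (h : 0 < gs u x) (a : Fin n → ℝ) :
    ∑ k, pd k (fun y => wn u y ^ 2 * pd k (tau a u) y) x = - (wn u x ^ 2 * dn u x * tau a u x) := by
  have hf : ContDiffAt ℝ 2 (dd a u) x := by exact_mod_cast (dd_c2 hu a 2).contDiffAt
  have := (Sol.div_quot hu h hf).2
  rw [Sol.lap_dd hu, sub_self, mul_zero, zero_sub] at this
  exact this

/-- `w²∇τ_a = w∇u_a - u_a∇w`. -/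
lemma Sol.wn_sq_pd_tau (hu : Sol u) (h : 0 < gs u x) (a : Fin n → ℝ) (k : Fin n) :
    wn u x ^ 2 * pd k (tau a u) x = wn u x * pd k (dd a u) x - dd a u x * pd k (wn u) x := by
  have hf : ContDiffAt ℝ 2 (dd a u) x := by exact_mod_cast (dd_c2 hu a 2).contDiffAt
  exact (Sol.div_quot hu h hf).1.self_of_nhds k

/-- The support function `s/w = x·ν`. -/
noncomputable def vs (u : (Fin n → ℝ) → ℝ) (x : Fin n → ℝ) : ℝ := rd u x / wn u x

/-- `div (w²∇(s/w)) = 2wW' - w²|∇ν|² (s/w)`. -/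
lemma Sol.div_vs (hu : Sol u) (h : 0 < gs u x) :
    ∑ k, pd k (fun y => wn u y ^ 2 * pd k (vs u) y) x
      = 2 * wn u x * (u x ^ 3 - u x) - wn u x ^ 2 * dn u x * vs u x := by
  have := (Sol.div_quot hu h (Sol.rd_c2 hu).contDiffAt).2
  rw [Sol.lap_rd hu] at this
  have e : wn u x * ((3 * u x ^ 2 - 1) * rd u x + 2 * (u x ^ 3 - u x) - (3 * u x ^ 2 - 1) * rd u x)
      = 2 * wn u x * (u x ^ 3 - u x) := by ring
  rw [e] at this
  exact this

/-- `w H = W' - ∂_ν w`. -/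
lemma Sol.wn_mc (hu : Sol u) (h : 0 < gs u x) :
    wn u x * mc u x = (u x ^ 3 - u x) - ∑ i, nu u i x * pd i (wn u) x := by
  unfold mc
  rw [Finset.mul_sum, Finset.sum_congr rfl fun i _ => Sol.pd_nu hu h i i,
    Finset.sum_sub_distrib, hu.eq]

/-- `∂_ν D = 2w · wH`. -/
lemma Sol.dnu_defi (hu : Sol u) (h : 0 < gs u x) :
    ∑ i, nu u i x * pd i (defi u) x = 2 * wn u x ^ 2 * mc u x := by
  have h1 := Sol.wn_mc hu h
  have e : ∀ i, nu u i x * pd i (defi u) x = 2 * (u x ^ 3 - u x) * wn u x * nu u i x ^ 2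
      - 2 * wn u x * (nu u i x * pd i (wn u) x) := by
    intro i
    rw [Sol.pd_defi' hu h, pd_eq_wn_mul_nu h i]; ring
  rw [Finset.sum_congr rfl fun i _ => e i, Finset.sum_sub_distrib, ← Finset.mul_sum,
    ← Finset.mul_sum, sum_nu_sq h]
  linear_combination (-2 * wn u x) * h1

/-- `x·(w²∇τ_a) = ∇s·(w a - τ_a ∇u)`. -/
lemma Sol.x_dot_tau (hu : Sol u) (h : 0 < gs u x) (a : Fin n → ℝ) :
    ∑ k, x k * (wn u x ^ 2 * pd k (tau a u) x)
      = ∑ k, pd k (rd u) x * (wn u x * a k - tau a u x * pd k u x) := by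
  have h0 := (wn_pos h).ne'
  have hd : ∀ k, pd k (dd a u) x = ∑ i, a i * pd k (pd i u) x := fun k => pd_dd hu.c2 k x
  have ht : tau a u x = dd a u x / wn u x := rfl
  have h4 := wn_sq u x
  simp_rw [Sol.wn_sq_pd_tau hu h, hd, pd_rd hu.c2]
  have sym : ∀ i k, pd i (pd k u) x = pd k (pd i u) x := fun i k => pd_comm hu.c2
  have l1 : ∑ k, x k * (wn u x * ∑ i, a i * pd k (pd i u) x - dd a u x * pd k (wn u) x)
      = wn u x * ∑ k, ∑ i, x k * a i * pd k (pd i u) x - dd a u x * ∑ k, x k * pd k (wn u) x := by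
    rw [Finset.mul_sum, Finset.mul_sum, ← Finset.sum_sub_distrib]
    refine Finset.sum_congr rfl fun k _ => ?_
    rw [Finset.mul_sum, Finset.mul_sum, mul_sub, Finset.mul_sum]
    congr 1
    · refine Finset.sum_congr rfl fun i _ => ?_
      ring
    · ring
  have l2 : ∑ k, (pd k u x + ∑ i, x i * pd k (pd i u) x) * (wn u x * a k - tau a u x * pd k u x)
      = wn u x * dd a u x - tau a u x * gs u x
        + wn u x * ∑ k, ∑ i, x i * a k * pd k (pd i u) x
        - tau a u x * ∑ k, ∑ i, x i * pd k u x * pd k (pd i u) x := by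
    unfold dd gs
    rw [Finset.mul_sum, Finset.mul_sum, Finset.mul_sum, Finset.mul_sum,
      ← Finset.sum_sub_distrib, ← Finset.sum_add_distrib, ← Finset.sum_sub_distrib]
    refine Finset.sum_congr rfl fun k _ => ?_
    rw [Finset.mul_sum, Finset.mul_sum, add_mul, Finset.sum_mul]
    have : ∑ i, x i * pd k (pd i u) x * (wn u x * a k - tau a u x * pd k u x)
        = ∑ i, wn u x * (x i * a k * pd k (pd i u) x)
          - ∑ i, tau a u x * (x i * pd k u x * pd k (pd i u) x) := by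
      rw [← Finset.sum_sub_distrib]
      refine Finset.sum_congr rfl fun i _ => ?_
      ring
    rw [this]; ring
  have l3 : ∑ k, ∑ i, x i * a k * pd k (pd i u) x = ∑ k, ∑ i, x k * a i * pd k (pd i u) x := by
    rw [Finset.sum_comm]
    refine Finset.sum_congr rfl fun i _ => Finset.sum_congr rfl fun k _ => ?_
    rw [sym]
  have l4 : ∑ k, ∑ i, x i * pd k u x * pd k (pd i u) x = wn u x * ∑ k, x k * pd k (wn u) x := by
    rw [Finset.sum_comm, Finset.mul_sum]
    refine Finset.sum_congr rfl fun i _ => ?_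
    rw [show wn u x * (x i * pd i (wn u) x) = x i * (wn u x * pd i (wn u) x) by ring,
      Sol.pd_wn hu h, Finset.mul_sum]
    refine Finset.sum_congr rfl fun k _ => ?_
    rw [sym]; ring
  rw [l1, l2, l3, l4, ht, ← h4]
  field_simp
  ring

/-- `div (w a - τ_a ∇u) = -τ_a w H`. -/
lemma Sol.div_wa (hu : Sol u) (h : 0 < gs u x) (a : Fin n → ℝ) :
    ∑ k, pd k (fun y => wn u y * a k - tau a u y * pd k u y) x
      = - (tau a u x * (wn u x * mc u x)) := by
  have hw := Sol.wn_c2 hu h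
  have h0 := (wn_pos h).ne'
  have hdc : ContDiffAt ℝ 2 (dd a u) x := by exact_mod_cast (dd_c2 hu a 2).contDiffAt
  have hτ : ContDiffAt ℝ 2 (tau a u) x := by
    unfold tau; exact hdc.div hw h0
  have e : ∀ k, pd k (fun y => wn u y * a k - tau a u y * pd k u y) x
      = pd k (wn u) x * a k - pd k (tau a u) x * pd k u x - tau a u x * pd k (pd k u) x := by
    intro k
    have d1 : DifferentiableAt ℝ (fun y => wn u y * a k) x := (da hw).mul_const _
    have d2 : DifferentiableAt ℝ (fun y => tau a u y * pd k u y) x :=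
      (da hτ).mul (dif_pd hu.c2 k x)
    rw [pd_sub d1 d2, pd_mul (da hτ) (dif_pd hu.c2 k x),
      pd_mul (g := fun _ => a k) (da hw) (differentiableAt_const _), pd_const]
    ring
  rw [Finset.sum_congr rfl fun k _ => e k]
  simp_rw [Finset.sum_sub_distrib]
  rw [← Finset.mul_sum, hu.eq]
  have key : wn u x ^ 2 * ∑ k, pd k (tau a u) x * pd k u x
      = wn u x ^ 2 * (∑ k, pd k (wn u) x * a k - tau a u x * ∑ i, nu u i x * pd i (wn u) x) := by
    rw [Finset.mul_sum]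
    have e1 : ∀ k, wn u x ^ 2 * (pd k (tau a u) x * pd k u x)
        = wn u x * (pd k (dd a u) x * pd k u x) - dd a u x * (pd k (wn u) x * pd k u x) := by
      intro k
      have := Sol.wn_sq_pd_tau hu h a k
      linear_combination (pd k u x) * this
    rw [Finset.sum_congr rfl fun k _ => e1 k, Finset.sum_sub_distrib, ← Finset.mul_sum,
      ← Finset.mul_sum]
    have e2 : ∑ k, pd k (dd a u) x * pd k u x = wn u x * ∑ k, pd k (wn u) x * a k := by
      have hd : ∀ k, pd k (dd a u) x = ∑ i, a i * pd k (pd i u) x := fun k => pd_dd hu.c2 k x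
      simp_rw [hd]
      rw [Finset.mul_sum]
      simp_rw [Finset.sum_mul]
      rw [Finset.sum_comm]
      refine Finset.sum_congr rfl fun i _ => ?_
      rw [← mul_assoc, Sol.pd_wn hu h, Finset.sum_mul]
      refine Finset.sum_congr rfl fun k _ => ?_
      rw [show pd k (pd i u) x = pd i (pd k u) x from pd_comm hu.c2]
      ring
    have e3 : ∑ k, pd k (wn u) x * pd k u x = wn u x * ∑ i, nu u i x * pd i (wn u) x := by
      rw [Finset.mul_sum]
      refine Finset.sum_congr rfl fun k _ => ?_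
      rw [pd_eq_wn_mul_nu h k]; ring
    rw [e2, e3]
    have ht : dd a u x = tau a u x * wn u x := by unfold tau; field_simp
    rw [ht]; ring
  have key2 := mul_left_cancel₀ (pow_ne_zero 2 h0) key
  rw [key2, Sol.wn_mc hu h]
  ring

end Vale.Agent.P134.SM
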