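import Vale.Agent.P134.SM.Nu

set_option linter.all false

/-! Second fundamental form: `|∇ν|² = |A|² + |∇_T log w|²`, `H² ≤ (n-1)|A|²`, symmetry of `A`,
`∇τ_a = A a + ..`, `∇(x·ν) = A x + ..`, `w∇_T w = -∇_T D/2`. -/

namespace Vale.Agent.P134.SM

open Vale.Agent.P134 Filter Topology

variable {n : ℕ} {f g u : (Fin n → ℝ) → ℝ} {x a : Fin n → ℝ} {i j k : Fin n}

/-- Normal derivative `∂_ν f = ν·∇f`. -/
noncomputable def nd (u f : (Fin n → ℝ) → ℝ) (x : Fin n → ℝ) : ℝ := ∑ i, nu u i x * pd i f x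

/-- Tangential gradient. -/
noncomputable def tg (u f : (Fin n → ℝ) → ℝ) (k : Fin n) (x : Fin n → ℝ) : ℝ :=
  pd k f x - nu u k x * nd u f x

/-- Second fundamental form `A = Dν P_T`. -/
noncomputable def sff (u : (Fin n → ℝ) → ℝ) (i j : Fin n) (x : Fin n → ℝ) : ℝ :=
  pd j (nu u i) x - nd u (nu u i) x * nu u j x

/-- `|A|²`. -/
noncomputable def an (u : (Fin n → ℝ) → ℝ) (x : Fin n → ℝ) : ℝ := ∑ i, ∑ j, sff u i j x ^ 2

/-- `|∇_T log w|²`. -/
noncomputable def tl (u : (Fin n → ℝ) → ℝ) (x : Fin n → ℝ) : ℝ :=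
  ∑ i, (tg u (wn u) i x / wn u x) ^ 2

lemma an_nonneg (u : (Fin n → ℝ) → ℝ) (x : Fin n → ℝ) : 0 ≤ an u x :=
  Finset.sum_nonneg fun _ _ => Finset.sum_nonneg fun _ _ => sq_nonneg _
lemma tl_nonneg (u : (Fin n → ℝ) → ℝ) (x : Fin n → ℝ) : 0 ≤ tl u x :=
  Finset.sum_nonneg fun _ _ => sq_nonneg _

/-- `∂_ν ν_i = ∂_i^T log w`. -/
lemma Sol.nd_nu (hu : Sol u) (h : 0 < gs u x) (i : Fin n) :
    nd u (nu u i) x = tg u (wn u) i x / wn u x := by
  have h0 := (wn_pos h).ne'
  rw [eq_div_iff h0]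
  unfold nd tg
  rw [Finset.sum_mul]
  have e : ∀ j, nu u j x * pd j (nu u i) x * wn u x
      = nu u j x * pd i (pd j u) x - nu u i x * (nu u j x * pd j (wn u) x) := by
    intro j
    have h1 := Sol.pd_nu hu h i j
    have h2 : pd j (pd i u) x = pd i (pd j u) x := pd_comm hu.c2
    rw [h2] at h1
    linear_combination (nu u j x) * h1
  rw [Finset.sum_congr rfl fun j _ => e j, Finset.sum_sub_distrib, ← Finset.mul_sum,
    ← Sol.pd_wn' hu h]
  rfl

/-- `ν·∂_j ν = 0`. -/
lemma Sol.nu_dot_pd (hu : Sol u) (h : 0 < gs u x) (j : Fin n) :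
    ∑ i, nu u i x * pd j (nu u i) x = 0 := by
  have h0 := (wn_pos h).ne'
  have : wn u x * ∑ i, nu u i x * pd j (nu u i) x = 0 := by
    rw [Finset.mul_sum]
    have e : ∀ i, wn u x * (nu u i x * pd j (nu u i) x)
        = nu u i x * pd j (pd i u) x - nu u i x ^ 2 * pd j (wn u) x := by
      intro i
      have h1 := Sol.pd_nu hu h i j
      linear_combination (nu u i x) * h1
    rw [Finset.sum_congr rfl fun i _ => e i, Finset.sum_sub_distrib, ← Finset.sum_mul,
      sum_nu_sq h, ← Sol.pd_wn' hu h]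
    ring
  exact (mul_eq_zero.mp this).resolve_left h0

lemma nu_dot_tg (h : 0 < gs u x) (f : (Fin n → ℝ) → ℝ) : ∑ i, nu u i x * tg u f i x = 0 := by
  unfold tg
  have e : ∀ i, nu u i x * (pd i f x - nu u i x * nd u f x)
      = nu u i x * pd i f x - nu u i x ^ 2 * nd u f x := by intro i; ring
  rw [Finset.sum_congr rfl fun i _ => e i, Finset.sum_sub_distrib, ← Finset.sum_mul, sum_nu_sq h]
  unfold nd; ring

/-- Symmetric formula for the second fundamental form. -/
lemma Sol.wn_sff (hu : Sol u) (h : 0 < gs u x) (i j : Fin n) :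
    wn u x * sff u i j x = pd j (pd i u) x - nu u i x * pd j (wn u) x
      - nu u j x * pd i (wn u) x + nu u i x * nu u j x * nd u (wn u) x := by
  have h0 := (wn_pos h).ne'
  have h1 := Sol.pd_nu hu h i j
  have h2 := Sol.nd_nu hu h i
  rw [eq_div_iff h0] at h2
  unfold sff
  unfold tg at h2
  linear_combination h1 - (nu u j x) * h2

lemma Sol.sff_symm (hu : Sol u) (h : 0 < gs u x) (i j : Fin n) : sff u i j x = sff u j i x := by
  have h0 := (wn_pos h).ne'
  apply mul_left_cancel₀ h0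
  rw [Sol.wn_sff hu h, Sol.wn_sff hu h, show pd j (pd i u) x = pd i (pd j u) x from pd_comm hu.c2]
  ring

lemma Sol.sff_nu (hu : Sol u) (h : 0 < gs u x) (i : Fin n) : ∑ j, sff u i j x * nu u j x = 0 := by
  unfold sff
  have e : ∀ j, (pd j (nu u i) x - nd u (nu u i) x * nu u j x) * nu u j x
      = nu u j x * pd j (nu u i) x - nd u (nu u i) x * nu u j x ^ 2 := by intro j; ring
  rw [Finset.sum_congr rfl fun j _ => e j, Finset.sum_sub_distrib, ← Finset.mul_sum, sum_nu_sq h]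
  unfold nd; ring

/-- `|∇ν|² = |A|² + |∇_T log w|²`. -/
lemma Sol.dn_eq (hu : Sol u) (h : 0 < gs u x) : dn u x = an u x + tl u x := by
  have e1 : tl u x = ∑ i, nd u (nu u i) x ^ 2 := by
    unfold tl
    refine Finset.sum_congr rfl fun i _ => ?_
    rw [Sol.nd_nu hu h]
  rw [e1]
  unfold dn an
  rw [← Finset.sum_add_distrib]
  refine Finset.sum_congr rfl fun i _ => ?_
  have e : ∀ j, sff u i j x ^ 2 = pd j (nu u i) x ^ 2
      - 2 * nd u (nu u i) x * (nu u j x * pd j (nu u i) x)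
      + nd u (nu u i) x ^ 2 * nu u j x ^ 2 := by intro j; unfold sff; ring
  rw [Finset.sum_congr rfl fun j _ => e j, Finset.sum_add_distrib, Finset.sum_sub_distrib,
    ← Finset.mul_sum, ← Finset.mul_sum, sum_nu_sq h]
  have : ∑ j, nu u j x * pd j (nu u i) x = nd u (nu u i) x := rfl
  rw [this]; ring

/-- `H = tr A`. -/
lemma Sol.mc_eq (hu : Sol u) (h : 0 < gs u x) : mc u x = ∑ i, sff u i i x := by
  unfold mc sff
  rw [Finset.sum_sub_distrib]
  have : ∑ i, nd u (nu u i) x * nu u i x = 0 := by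
    have h1 : ∀ i, nd u (nu u i) x * nu u i x = (nu u i x * tg u (wn u) i x) / wn u x := by
      intro i; rw [Sol.nd_nu hu h]; ring
    rw [Finset.sum_congr rfl fun i _ => h1 i, ← Finset.sum_div, nu_dot_tg h, zero_div]
  rw [this, sub_zero]

/-- `H² ≤ (n-1)|A|²`. -/
lemma Sol.mc_sq_le (hu : Sol u) (h : 0 < gs u x) : mc u x ^ 2 ≤ ((n:ℝ) - 1) * an u x := by
  -- `H = Σ A_ij P_ij`, `|P|² = n - 1`
  have hH : mc u x = ∑ i, ∑ j, sff u i j x * ((if i = j then 1 else 0) - nu u i x * nu u j x) := by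
    rw [Sol.mc_eq hu h]
    refine Finset.sum_congr rfl fun i _ => ?_
    have e : ∀ j, sff u i j x * ((if i = j then (1:ℝ) else 0) - nu u i x * nu u j x)
        = (if i = j then sff u i j x else 0) - nu u i x * (sff u i j x * nu u j x) := by
      intro j; split_ifs <;> ring
    rw [Finset.sum_congr rfl fun j _ => e j, Finset.sum_sub_distrib, ← Finset.mul_sum,
      Sol.sff_nu hu h]
    simp
  have hP : ∑ i : Fin n, ∑ j : Fin n, ((if i = j then (1:ℝ) else 0) - nu u i x * nu u j x) ^ 2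
      = n - 1 := by
    have e : ∀ i j : Fin n, ((if i = j then (1:ℝ) else 0) - nu u i x * nu u j x) ^ 2
        = (if i = j then 1 - 2 * (nu u i x * nu u j x) else 0) + nu u i x ^ 2 * nu u j x ^ 2 := by
      intro i j; split_ifs <;> ring
    simp_rw [e, Finset.sum_add_distrib]
    have s1 : ∑ i : Fin n, ∑ j : Fin n, (if i = j then 1 - 2 * (nu u i x * nu u j x) else 0)
        = n - 2 := by
      have : ∀ i : Fin n, ∑ j : Fin n, (if i = j then 1 - 2 * (nu u i x * nu u j x) else 0)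
          = 1 - 2 * nu u i x ^ 2 := by
        intro i
        rw [Finset.sum_ite_eq Finset.univ i]
        simp only [Finset.mem_univ, if_true]
        ring
      rw [Finset.sum_congr rfl fun i _ => this i, Finset.sum_sub_distrib, ← Finset.mul_sum,
        sum_nu_sq h]
      simp
    have s2 : ∑ i : Fin n, ∑ j : Fin n, nu u i x ^ 2 * nu u j x ^ 2 = 1 := by
      have : ∀ i : Fin n, ∑ j : Fin n, nu u i x ^ 2 * nu u j x ^ 2 = nu u i x ^ 2 := by
        intro i; rw [← Finset.mul_sum, sum_nu_sq h, mul_one]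
      rw [Finset.sum_congr rfl fun i _ => this i, sum_nu_sq h]
    rw [s1, s2]; ring
  have hcs : mc u x ^ 2 ≤ an u x *
      ∑ i : Fin n, ∑ j : Fin n, ((if i = j then (1:ℝ) else 0) - nu u i x * nu u j x) ^ 2 := by
    rw [hH]
    unfold an
    rw [← Finset.sum_product', ← Finset.sum_product', ← Finset.sum_product']
    exact Finset.sum_mul_sq_le_sq_mul_sq _ _ _
  rw [hP] at hcs
  linarith

/-- `∂_k τ_a = Σ_i A_ik a_i + (a·∂_νν) ν_k`. -/
lemma Sol.pd_tau_eq (hu : Sol u) (h : 0 < gs u x) (a : Fin n → ℝ) (k : Fin n) :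
    pd k (tau a u) x = ∑ i, a i * sff u i k x + (∑ i, a i * nd u (nu u i) x) * nu u k x := by
  have hev : tau a u =ᶠ[𝓝 x] fun y => ∑ i, a i * nu u i y := by
    filter_upwards with y
    unfold tau dd nu
    rw [Finset.sum_div]
    refine Finset.sum_congr rfl fun i _ => ?_
    ring
  have hd : ∀ i, DifferentiableAt ℝ (nu u i) x := fun i => da (Sol.nu_c2 hu h i)
  rw [pd_congr hev, pd_sum (F := fun i y => a i * nu u i y) Finset.univ
    (fun i _ => (hd i).const_mul _), Finset.sum_mul, ← Finset.sum_add_distrib]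
  refine Finset.sum_congr rfl fun i _ => ?_
  rw [pd_mul (f := fun _ => a i) (differentiableAt_const _) (hd i), pd_const]
  unfold sff
  ring

/-- `∂_k(x·ν) = ν_k + Σ_i A_ik x_i + (x·∂_νν) ν_k`. -/
lemma Sol.pd_vs_eq (hu : Sol u) (h : 0 < gs u x) (k : Fin n) :
    pd k (vs u) x = nu u k x + ∑ i, x i * sff u i k x
      + (∑ i, x i * nd u (nu u i) x) * nu u k x := by
  have hev : vs u =ᶠ[𝓝 x] fun y => ∑ i, y i * nu u i y := by
    filter_upwards with y
    unfold vs rd nu
    rw [Finset.sum_div]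
    refine Finset.sum_congr rfl fun i _ => ?_
    ring
  have hd : ∀ i, DifferentiableAt ℝ (nu u i) x := fun i => da (Sol.nu_c2 hu h i)
  have hc : ∀ i, DifferentiableAt ℝ (fun y : Fin n → ℝ => y i) x := fun i =>
    dif (coord_c2 i) x
  rw [pd_congr hev, pd_sum (F := fun i y => y i * nu u i y) Finset.univ
    (fun i _ => (hc i).mul (hd i))]
  have e : ∀ i, pd k (fun y => y i * nu u i y) x
      = (if i = k then nu u i x else 0) + (x i * sff u i k x + x i * nd u (nu u i) x * nu u k x) := by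
    intro i
    rw [pd_mul (hc i) (hd i), pd_coord]
    unfold sff
    split_ifs <;> ring
  rw [Finset.sum_congr rfl fun i _ => e i, Finset.sum_add_distrib, Finset.sum_add_distrib,
    Finset.sum_mul]
  simp only [Finset.sum_ite_eq', Finset.mem_univ, if_true]
  ring

/-- `2 w ∇_T w = - ∇_T D`. -/
lemma Sol.tg_defi (hu : Sol u) (h : 0 < gs u x) (k : Fin n) :
    tg u (defi u) k x = - (2 * wn u x * tg u (wn u) k x) := by
  have h1 := Sol.dnu_defi hu h
  have h2 := Sol.wn_mc hu h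
  unfold tg
  have h3 : nd u (defi u) x = 2 * wn u x ^ 2 * mc u x := h1
  have h4 : nd u (wn u) x = (u x ^ 3 - u x) - wn u x * mc u x := by
    unfold nd; linarith
  rw [h3, h4, Sol.pd_defi' hu h, pd_eq_wn_mul_nu h k]
  ring

/-- `|∇D|² = 4w²|∇_T w|² + 4w⁴H²`; in particular `|∇_T log w|² ≤ |∇D|²/(4w⁴)` and
`H² ≤ |∇D|²/(4w⁴)`. -/
lemma Sol.gs_defi_eq (hu : Sol u) (h : 0 < gs u x) :
    gs (defi u) x = 4 * wn u x ^ 4 * (tl u x + mc u x ^ 2) := by
  have h0 := (wn_pos h).ne'
  have hdec : gs (defi u) x = ∑ k, tg u (defi u) k x ^ 2 + nd u (defi u) x ^ 2 := by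
    unfold gs
    have e : ∀ k, pd k (defi u) x ^ 2 = tg u (defi u) k x ^ 2
        + 2 * nd u (defi u) x * (nu u k x * tg u (defi u) k x)
        + nd u (defi u) x ^ 2 * nu u k x ^ 2 := by intro k; unfold tg; ring
    rw [Finset.sum_congr rfl fun k _ => e k, Finset.sum_add_distrib, Finset.sum_add_distrib,
      ← Finset.mul_sum, ← Finset.mul_sum, nu_dot_tg h, sum_nu_sq h]
    ring
  have h1 : nd u (defi u) x = 2 * wn u x ^ 2 * mc u x := Sol.dnu_defi hu h
  have h2 : ∑ k, tg u (defi u) k x ^ 2 = 4 * wn u x ^ 4 * tl u x := by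
    unfold tl
    rw [Finset.mul_sum]
    refine Finset.sum_congr rfl fun k _ => ?_
    rw [Sol.tg_defi hu h]
    field_simp
    ring
  rw [hdec, h1, h2]; ring

end Vale.Agent.P134.SM
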