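import Vale.Agent.P134.SM.Smooth

set_option linter.all false

/-! Pointwise identities for smooth solutions: Laplacian calculus, the linearised equation for the
partial derivatives, `|∇u|²`, the Modica deficit, the radial derivative, the unit normal. -/

namespace Vale.Agent.P134.SM

open Vale.Agent.P134 Filter Topology

variable {n : ℕ} {f g u : (Fin n → ℝ) → ℝ} {x : Fin n → ℝ} {i j k : Fin n}

/-- The Laplacian. -/
noncomputable def lap (f : (Fin n → ℝ) → ℝ) (x : Fin n → ℝ) : ℝ := ∑ i, pd i (pd i f) x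

/-- `|∇ f|²`. -/
noncomputable def gs (f : (Fin n → ℝ) → ℝ) (x : Fin n → ℝ) : ℝ := ∑ i, pd i f x ^ 2

/-- `∇ f · ∇ g`. -/
noncomputable def gg (f g : (Fin n → ℝ) → ℝ) (x : Fin n → ℝ) : ℝ := ∑ i, pd i f x * pd i g x

/-- `|D² f|²`. -/
noncomputable def hs (f : (Fin n → ℝ) → ℝ) (x : Fin n → ℝ) : ℝ := ∑ i, ∑ j, pd i (pd j f) x ^ 2

lemma gs_nonneg (f : (Fin n → ℝ) → ℝ) (x : Fin n → ℝ) : 0 ≤ gs f x :=
  Finset.sum_nonneg fun _ _ => sq_nonneg _

lemma hs_nonneg (f : (Fin n → ℝ) → ℝ) (x : Fin n → ℝ) : 0 ≤ hs f x :=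
  Finset.sum_nonneg fun _ _ => Finset.sum_nonneg fun _ _ => sq_nonneg _

lemma gg_self (f : (Fin n → ℝ) → ℝ) (x : Fin n → ℝ) : gg f f x = gs f x :=
  Finset.sum_congr rfl fun _ _ => by ring

lemma gg_comm (f g : (Fin n → ℝ) → ℝ) (x : Fin n → ℝ) : gg f g x = gg g f x :=
  Finset.sum_congr rfl fun _ _ => by ring

lemma gg_sq_le (f g : (Fin n → ℝ) → ℝ) (x : Fin n → ℝ) : gg f g x ^ 2 ≤ gs f x * gs g x :=
  Finset.sum_mul_sq_le_sq_mul_sq _ _ _

lemma dif (hf : ContDiff ℝ 2 f) : Differentiable ℝ f := hf.differentiable (by norm_num)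
lemma dif_pd (hf : ContDiff ℝ 2 f) (i : Fin n) : Differentiable ℝ (pd i f) :=
  (contDiff_pd_one hf).differentiable (by norm_num)

lemma lap_add (hf : ContDiff ℝ 2 f) (hg : ContDiff ℝ 2 g) (x : Fin n → ℝ) :
    lap (fun y => f y + g y) x = lap f x + lap g x := by
  unfold lap
  rw [← Finset.sum_add_distrib]
  refine Finset.sum_congr rfl fun i _ => ?_
  have e : pd i (fun y => f y + g y) = fun y => pd i f y + pd i g y := by
    funext y; exact pd_add (dif hf y) (dif hg y)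
  rw [e, pd_add (dif_pd hf i x) (dif_pd hg i x)]

lemma lap_sub (hf : ContDiff ℝ 2 f) (hg : ContDiff ℝ 2 g) (x : Fin n → ℝ) :
    lap (fun y => f y - g y) x = lap f x - lap g x := by
  unfold lap
  rw [← Finset.sum_sub_distrib]
  refine Finset.sum_congr rfl fun i _ => ?_
  have e : pd i (fun y => f y - g y) = fun y => pd i f y - pd i g y := by
    funext y; exact pd_sub (dif hf y) (dif hg y)
  rw [e, pd_sub (dif_pd hf i x) (dif_pd hg i x)]

lemma lap_const (c : ℝ) (x : Fin n → ℝ) : lap (fun _ => c) x = 0 := by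
  unfold lap
  refine Finset.sum_eq_zero fun i _ => ?_
  have e : pd i (fun _ : Fin n → ℝ => c) = fun _ => 0 := by funext y; exact pd_const c
  rw [e, pd_const]

lemma lap_smul (c : ℝ) (hf : ContDiff ℝ 2 f) (x : Fin n → ℝ) :
    lap (fun y => c * f y) x = c * lap f x := by
  unfold lap
  rw [Finset.mul_sum]
  refine Finset.sum_congr rfl fun i _ => ?_
  have e : pd i (fun y => c * f y) = fun y => c * pd i f y := by
    funext y
    rw [pd_mul (f := fun _ => c) (differentiableAt_const _) (dif hf y), pd_const]; ring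
  rw [e, pd_mul (f := fun _ => c) (differentiableAt_const _) (dif_pd hf i x), pd_const]; ring

lemma lap_neg (hf : ContDiff ℝ 2 f) (x : Fin n → ℝ) : lap (fun y => - f y) x = - lap f x := by
  have := lap_smul (-1) hf x
  simpa using this

lemma lap_mul (hf : ContDiff ℝ 2 f) (hg : ContDiff ℝ 2 g) (x : Fin n → ℝ) :
    lap (fun y => f y * g y) x = lap f x * g x + 2 * gg f g x + f x * lap g x := by
  unfold lap gg
  rw [Finset.mul_sum, Finset.sum_mul, Finset.mul_sum, ← Finset.sum_add_distrib,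
    ← Finset.sum_add_distrib]
  refine Finset.sum_congr rfl fun i _ => ?_
  have e : pd i (fun y => f y * g y) = fun y => pd i f y * g y + f y * pd i g y := by
    funext y
    rw [pd_mul (dif hf y) (dif hg y)]; try ring
  have h1 : DifferentiableAt ℝ (fun y => pd i f y * g y) x := (dif_pd hf i x).mul (dif hg x)
  have h2 : DifferentiableAt ℝ (fun y => f y * pd i g y) x := (dif hf x).mul (dif_pd hg i x)
  rw [e, pd_add h1 h2, pd_mul (dif_pd hf i x) (dif hg x), pd_mul (dif hf x) (dif_pd hg i x)]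
  ring

lemma lap_sq (hf : ContDiff ℝ 2 f) (x : Fin n → ℝ) :
    lap (fun y => f y ^ 2) x = 2 * f x * lap f x + 2 * gs f x := by
  have e : (fun y => f y ^ 2) = fun y => f y * f y := by funext y; ring
  rw [e, lap_mul hf hf, gg_self]; ring

lemma lap_sum {ι : Type*} (s : Finset ι) {F : ι → (Fin n → ℝ) → ℝ}
    (hF : ∀ a, ContDiff ℝ 2 (F a)) (x : Fin n → ℝ) :
    lap (fun y => ∑ a ∈ s, F a y) x = ∑ a ∈ s, lap (F a) x := by
  classical
  induction s using Finset.induction_on with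
  | empty => simp [lap_const]
  | insert a s ha ih =>
      have e : (fun y => ∑ b ∈ insert a s, F b y) = fun y => F a y + ∑ b ∈ s, F b y := by
        funext y; rw [Finset.sum_insert ha]
      rw [e, lap_add (hF a) (ContDiff.sum fun b _ => hF b), ih, Finset.sum_insert ha]

/-- Chain rule for the Laplacian. -/
lemma lap_comp {h h1 h2 : ℝ → ℝ} (hf : ContDiff ℝ 2 f) (hh : ∀ y, HasDerivAt h (h1 (f y)) (f y))
    (hh1 : ∀ y, HasDerivAt h1 (h2 (f y)) (f y)) (x : Fin n → ℝ) :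
    (∀ i, pd i (fun y => h (f y)) x = h1 (f x) * pd i f x) ∧
    lap (fun y => h (f y)) x = h1 (f x) * lap f x + h2 (f x) * gs f x := by
  have e : ∀ i y, pd i (fun y => h (f y)) y = h1 (f y) * pd i f y := by
    intro i y
    rw [pd_comp (hh y).differentiableAt (dif hf y), (hh y).deriv]; try ring
  refine ⟨fun i => e i x, ?_⟩
  unfold lap gs
  rw [Finset.mul_sum, Finset.mul_sum, ← Finset.sum_add_distrib]
  refine Finset.sum_congr rfl fun i _ => ?_
  have e' : pd i (fun y => h (f y)) = fun y => h1 (f y) * pd i f y := by funext y; exact e i y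
  have hd : DifferentiableAt ℝ (fun y => h1 (f y)) x := (hh1 x).differentiableAt.comp x (dif hf x)
  rw [e', pd_mul hd (dif_pd hf i x), pd_comp (hh1 x).differentiableAt (dif hf x), (hh1 x).deriv]
  ring

/-! ### Solutions -/

lemma Sol.c3 (hu : Sol u) : ContDiff ℝ 3 u := Sol.contDiff_nat hu 3
lemma Sol.c4 (hu : Sol u) : ContDiff ℝ 4 u := Sol.contDiff_nat hu 4
lemma Sol.pd_c3 (hu : Sol u) (i : Fin n) : ContDiff ℝ 3 (pd i u) := Sol.ipd_contDiff hu [i] 3
lemma Sol.pd_c2 (hu : Sol u) (i : Fin n) : ContDiff ℝ 2 (pd i u) := Sol.ipd_contDiff hu [i] 2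
lemma Sol.pd2_c2 (hu : Sol u) (i j : Fin n) : ContDiff ℝ 2 (pd i (pd j u)) :=
  Sol.ipd_contDiff hu [i, j] 2
lemma Sol.pd_inf (hu : Sol u) (i : Fin n) (k : ℕ) : ContDiff ℝ k (pd i u) :=
  Sol.ipd_contDiff hu [i] k

lemma Sol.lap_eq (hu : Sol u) (x : Fin n → ℝ) : lap u x = u x ^ 3 - u x := hu.eq x

lemma pd_lap (hf : ContDiff ℝ 3 f) (i : Fin n) (x : Fin n → ℝ) :
    pd i (lap f) x = lap (pd i f) x := by
  have hf2 : ContDiff ℝ 2 f := hf.of_le (by norm_num)
  have hp : ∀ j, ContDiff ℝ 2 (pd j f) := fun j => by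
    have : ContDiff ℝ ((2:ℕ) + 1 : WithTop ℕ∞) f := by
      have e : ((2:ℕ) + 1 : WithTop ℕ∞) = 3 := by norm_num
      rw [e]; exact hf
    exact_mod_cast contDiff_pd (k := 2) this
  have hpp : ∀ j, Differentiable ℝ (pd j (pd j f)) := fun j => dif_pd (hp j) j
  have e1 : lap f = fun y => ∑ j, pd j (pd j f) y := rfl
  rw [e1, pd_sum (F := fun j => pd j (pd j f)) Finset.univ (fun j _ => hpp j x)]
  unfold lap
  refine Finset.sum_congr rfl fun j _ => ?_
  rw [pd_comm (hp j)]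
  have e2 : pd i (pd j f) = pd j (pd i f) := by funext y; exact pd_comm hf2
  rw [e2]

/-- The linearised equation for the partial derivatives. -/
lemma Sol.lap_pd (hu : Sol u) (i : Fin n) (x : Fin n → ℝ) :
    lap (pd i u) x = (3 * u x ^ 2 - 1) * pd i u x := by
  rw [← pd_lap (Sol.c3 hu)]
  have e : lap u = fun y => u y ^ 3 - u y := by funext y; exact hu.eq y
  have hd : DifferentiableAt ℝ u x := dif hu.c2 x
  rw [e, pd_sub (hd.fun_pow 3) hd]
  have e3 : (fun y => u y ^ 3) = fun y => (u y * u y) * u y := by funext y; ring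
  rw [e3, pd_mul (f := fun y => u y * u y) (hd.mul hd) hd, pd_mul hd hd]
  ring

/-- The second linearisation. -/
lemma Sol.lap_pd2 (hu : Sol u) (i j : Fin n) (x : Fin n → ℝ) :
    lap (pd i (pd j u)) x = (3 * u x ^ 2 - 1) * pd i (pd j u) x + 6 * u x * pd i u x * pd j u x := by
  rw [← pd_lap (Sol.pd_c3 hu j)]
  have e : lap (pd j u) = fun y => (3 * u y ^ 2 - 1) * pd j u y := by
    funext y; exact Sol.lap_pd hu j y
  have hd : DifferentiableAt ℝ u x := dif hu.c2 x
  have hdj : DifferentiableAt ℝ (pd j u) x := dif_pd hu.c2 j x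
  have h1 : DifferentiableAt ℝ (fun y => 3 * u y ^ 2) x := (hd.fun_pow 2).const_mul 3
  have h2 : DifferentiableAt ℝ (fun y => 3 * u y ^ 2 - 1) x := h1.sub_const 1
  have h3 : pd i (fun y => 3 * u y ^ 2 - 1) x = 6 * u x * pd i u x := by
    rw [pd_sub h1 (differentiableAt_const _), pd_const,
      pd_mul (f := fun _ => (3:ℝ)) (differentiableAt_const _) (hd.fun_pow 2), pd_const, pd_sq hd]
    ring
  rw [e, pd_mul h2 hdj, h3]
  ring

lemma gs_contDiff {m : ℕ} (hf : ContDiff ℝ (m + 1) f) : ContDiff ℝ m (gs f) := by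
  unfold gs
  exact ContDiff.sum fun i _ => (contDiff_pd hf).pow 2

lemma Sol.gs_c2 (hu : Sol u) : ContDiff ℝ 2 (gs u) := by
  unfold gs
  exact ContDiff.sum fun i _ => (Sol.pd_c2 hu i).pow 2

lemma pd_gs (hf : ContDiff ℝ 2 f) (k : Fin n) (x : Fin n → ℝ) :
    pd k (gs f) x = 2 * ∑ i, pd i f x * pd k (pd i f) x := by
  have e : gs f = fun y => ∑ i, pd i f y ^ 2 := rfl
  rw [e, pd_sum (F := fun i y => pd i f y ^ 2) Finset.univ
    (fun i _ => (dif_pd hf i x).fun_pow 2), Finset.mul_sum]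
  refine Finset.sum_congr rfl fun i _ => ?_
  rw [pd_sq (dif_pd hf i x)]; ring

/-- Bochner formula for solutions. -/
lemma Sol.lap_gs (hu : Sol u) (x : Fin n → ℝ) :
    lap (gs u) x = 2 * hs u x + 2 * (3 * u x ^ 2 - 1) * gs u x := by
  have e : gs u = fun y => ∑ i, pd i u y ^ 2 := rfl
  have e2 : lap (gs u) x = ∑ i, lap (fun y => pd i u y ^ 2) x := by
    rw [e]
    exact lap_sum (F := fun i y => pd i u y ^ 2) Finset.univ (fun i => (Sol.pd_c2 hu i).pow 2) x
  rw [e2]
  have e3 : ∀ i, lap (fun y => pd i u y ^ 2) x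
      = 2 * ((3 * u x ^ 2 - 1) * pd i u x ^ 2) + 2 * ∑ j, pd j (pd i u) x ^ 2 := by
    intro i
    rw [lap_sq (Sol.pd_c2 hu i), Sol.lap_pd hu]
    unfold gs
    ring
  rw [Finset.sum_congr rfl fun i _ => e3 i, Finset.sum_add_distrib, ← Finset.mul_sum,
    ← Finset.mul_sum, ← Finset.mul_sum]
  unfold hs gs
  rw [Finset.sum_comm]
  ring

lemma defi_eq (u : (Fin n → ℝ) → ℝ) (x : Fin n → ℝ) : defi u x = psi u x ^ 2 / 2 - gs u x := rfl

lemma Sol.defi_c2 (hu : Sol u) : ContDiff ℝ 2 (defi u) := by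
  have : defi u = fun y => psi u y ^ 2 / 2 - gs u y := rfl
  rw [this]
  exact ((hu.psi_contDiff.pow 2).div_const 2).sub (Sol.gs_c2 hu)

/-- Gradient of the Modica deficit. -/
lemma Sol.pd_defi (hu : Sol u) (k : Fin n) (x : Fin n → ℝ) :
    pd k (defi u) x = 2 * (u x ^ 3 - u x) * pd k u x - 2 * ∑ i, pd i u x * pd k (pd i u) x := by
  have e : defi u = fun y => (1/2) * psi u y ^ 2 - gs u y := by
    funext y; rw [defi_eq]; ring
  have dψ : DifferentiableAt ℝ (psi u) x := dif hu.psi_contDiff x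
  have dg : DifferentiableAt ℝ (gs u) x := dif (Sol.gs_c2 hu) x
  rw [e, pd_sub ((dψ.fun_pow 2).const_mul _) dg, pd_gs hu.c2,
    pd_mul (f := fun _ => (1/2:ℝ)) (differentiableAt_const _) (dψ.fun_pow 2), pd_const, pd_sq dψ,
    hu.pd_psi]
  unfold psi
  ring

/-- Laplacian of the Modica deficit: `ΔD = 2((Δu)² - |D²u|²)`. -/
lemma Sol.lap_defi (hu : Sol u) (x : Fin n → ℝ) :
    lap (defi u) x = 2 * ((u x ^ 3 - u x) ^ 2 - hs u x) := by
  have e : defi u = fun y => (1/2) * psi u y ^ 2 - gs u y := by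
    funext y; rw [defi_eq]; ring
  have hψ := hu.psi_contDiff
  have hψ2 : ContDiff ℝ 2 (fun y => psi u y ^ 2) := hψ.pow 2
  have h0 : lap (defi u) x = lap (fun y => (1/2) * psi u y ^ 2) x - lap (gs u) x := by
    rw [e]; exact lap_sub (contDiff_const.mul hψ2) (Sol.gs_c2 hu) x
  have hl : lap (psi u) x = (3 * u x ^ 2 - 1) * psi u x + 2 * defi u x := hu.lap_psi x
  have hg : gs (psi u) x = 4 * u x ^ 2 * gs u x := by
    unfold gs
    rw [Finset.mul_sum]
    refine Finset.sum_congr rfl fun i _ => ?_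
    rw [hu.pd_psi]; ring
  rw [h0, lap_smul _ hψ2, lap_sq hψ, Sol.lap_gs hu, hl, hg, defi_eq]
  unfold psi
  ring

/-- The radial derivative `x · ∇u`. -/
noncomputable def rd (u : (Fin n → ℝ) → ℝ) (x : Fin n → ℝ) : ℝ := ∑ i, x i * pd i u x

lemma coord_c2 (i : Fin n) {m : WithTop ℕ∞} : ContDiff ℝ m (fun y : Fin n → ℝ => y i) :=
  contDiff_apply ℝ ℝ i

lemma lap_coord_mul (hg : ContDiff ℝ 2 g) (i : Fin n) (x : Fin n → ℝ) :
    lap (fun y => y i * g y) x = 2 * pd i g x + x i * lap g x := by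
  rw [lap_mul (coord_c2 i) hg]
  have h0 : lap (fun y : Fin n → ℝ => y i) x = 0 := by
    unfold lap
    refine Finset.sum_eq_zero fun k _ => ?_
    have e : pd k (fun y : Fin n → ℝ => y i) = fun _ => if i = k then (1:ℝ) else 0 := by
      funext y; exact pd_coord
    rw [e, pd_const]
  have h1 : gg (fun y : Fin n → ℝ => y i) g x = pd i g x := by
    unfold gg
    simp_rw [pd_coord]
    simp
  rw [h0, h1]; ring

lemma Sol.rd_c2 (hu : Sol u) : ContDiff ℝ 2 (rd u) := by
  unfold rd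
  exact ContDiff.sum fun i _ => (coord_c2 i).mul (Sol.pd_c2 hu i)

/-- `L(x·∇u) = 2W'(u)`. -/
lemma Sol.lap_rd (hu : Sol u) (x : Fin n → ℝ) :
    lap (rd u) x = (3 * u x ^ 2 - 1) * rd u x + 2 * (u x ^ 3 - u x) := by
  have e : rd u = fun y => ∑ i, y i * pd i u y := rfl
  have e2 : lap (rd u) x = ∑ i, lap (fun y => y i * pd i u y) x := by
    rw [e]
    exact lap_sum (F := fun i y => y i * pd i u y) Finset.univ
      (fun i => (coord_c2 i).mul (Sol.pd_c2 hu i)) x
  rw [e2]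
  have e3 : ∀ i, lap (fun y => y i * pd i u y) x
      = 2 * pd i (pd i u) x + (3 * u x ^ 2 - 1) * (x i * pd i u x) := by
    intro i
    rw [lap_coord_mul (Sol.pd_c2 hu i), Sol.lap_pd hu]; ring
  rw [Finset.sum_congr rfl fun i _ => e3 i, Finset.sum_add_distrib, ← Finset.mul_sum,
    ← Finset.mul_sum, hu.eq]
  unfold rd
  ring

lemma pd_rd (hf : ContDiff ℝ 2 f) (k : Fin n) (x : Fin n → ℝ) :
    pd k (rd f) x = pd k f x + ∑ i, x i * pd k (pd i f) x := by
  have e : rd f = fun y => ∑ i, y i * pd i f y := rfl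
  have hc : ∀ i, DifferentiableAt ℝ (fun y : Fin n → ℝ => y i) x := fun i =>
    dif (coord_c2 i) x
  rw [e, pd_sum (F := fun i y => y i * pd i f y) Finset.univ
    (fun i _ => (hc i).mul (dif_pd hf i x))]
  have e1 : ∀ i, pd k (fun y => y i * pd i f y) x
      = (if i = k then pd i f x else 0) + x i * pd k (pd i f) x := by
    intro i
    rw [pd_mul (hc i) (dif_pd hf i x), pd_coord]
    split_ifs <;> ring
  rw [Finset.sum_congr rfl fun i _ => e1 i, Finset.sum_add_distrib]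
  simp

end Vale.Agent.P134.SM
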