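import Vale.Agent.P134.Bdl.B1

set_option linter.all false

/-! Interior regularity: bounded entire solutions of the Allen-Cahn equation are smooth, with
bounds for all derivatives that depend only on the dimension and the order. -/

namespace Vale.Agent.P134.SM

open Vale.Agent.P134 Filter Topology

variable {n : ℕ} {f g u : (Fin n → ℝ) → ℝ} {x : Fin n → ℝ} {i j : Fin n}

/-- Iterated differences. -/
def dl : List (Fin n → ℝ) → ((Fin n → ℝ) → ℝ) → (Fin n → ℝ) → ℝ
  | [], f => f
  | v :: l, f => fun x => dl l f (x + v) - dl l f x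

/-- Difference operator. -/
def df (v : Fin n → ℝ) (f : (Fin n → ℝ) → ℝ) : (Fin n → ℝ) → ℝ := fun x => f (x + v) - f x

lemma dl_nil (f : (Fin n → ℝ) → ℝ) : dl [] f = f := rfl
lemma dl_cons (v : Fin n → ℝ) (l : List (Fin n → ℝ)) (f : (Fin n → ℝ) → ℝ) :
    dl (v :: l) f = fun x => dl l f (x + v) - dl l f x := rfl

lemma dl_shift (l : List (Fin n → ℝ)) : ∀ (f : (Fin n → ℝ) → ℝ) (v x : Fin n → ℝ),
    dl l (fun y => f (y + v)) x = dl l f (x + v) := by
  induction l with
  | nil => intro f v x; rfl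
  | cons w l ih =>
      intro f v x
      simp only [dl_cons]
      rw [ih, ih, add_right_comm]

lemma dl_sub (l : List (Fin n → ℝ)) : ∀ (f g : (Fin n → ℝ) → ℝ) (x : Fin n → ℝ),
    dl l (fun y => f y - g y) x = dl l f x - dl l g x := by
  induction l with
  | nil => intro f g x; rfl
  | cons w l ih =>
      intro f g x
      simp only [dl_cons]
      rw [ih, ih]; ring

lemma dl_add (l : List (Fin n → ℝ)) : ∀ (f g : (Fin n → ℝ) → ℝ) (x : Fin n → ℝ),
    dl l (fun y => f y + g y) x = dl l f x + dl l g x := by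
  induction l with
  | nil => intro f g x; rfl
  | cons w l ih =>
      intro f g x
      simp only [dl_cons]
      rw [ih, ih]; ring

lemma dl_smul (l : List (Fin n → ℝ)) : ∀ (c : ℝ) (f : (Fin n → ℝ) → ℝ) (x : Fin n → ℝ),
    dl l (fun y => c * f y) x = c * dl l f x := by
  induction l with
  | nil => intro c f x; rfl
  | cons w l ih =>
      intro c f x
      simp only [dl_cons]
      rw [ih, ih]; ring

lemma dl_cons' (l : List (Fin n → ℝ)) (v : Fin n → ℝ) (f : (Fin n → ℝ) → ℝ) (x : Fin n → ℝ) :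
    dl (v :: l) f x = dl l (fun y => f (y + v) - f y) x := by
  rw [dl_sub, dl_shift]; rfl

/-- Bounded differences up to order `m`. -/
def DB (m : ℕ) (C : ℝ) (f : (Fin n → ℝ) → ℝ) : Prop :=
  ∀ l : List (Fin n → ℝ), l.length ≤ m → ∀ x, |dl l f x| ≤ C * (l.map norm).prod

lemma DB.nonneg {m : ℕ} {C : ℝ} (h : DB m C f) : 0 ≤ C := by
  have := (abs_nonneg _).trans (h [] (by simp) 0)
  simpa using this

lemma DB.bd {m : ℕ} {C : ℝ} (h : DB m C f) (x : Fin n → ℝ) : |f x| ≤ C := by
  have := h [] (by simp) x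
  simpa [dl_nil] using this

lemma DB.mono {m m' : ℕ} {C C' : ℝ} (h : DB m C f) (hm : m' ≤ m) (hC : C ≤ C') : DB m' C' f := by
  intro l hl x
  refine (h l (hl.trans hm) x).trans (mul_le_mul_of_nonneg_right hC ?_)
  exact List.prod_nonneg (by simp)

lemma DB.shift {m : ℕ} {C : ℝ} (h : DB m C f) (v : Fin n → ℝ) : DB m C (fun y => f (y + v)) := by
  intro l hl x
  rw [dl_shift]
  exact h l hl _

lemma DB.diff {m : ℕ} {C : ℝ} (h : DB (m + 1) C f) (v : Fin n → ℝ) :
    DB m (C * ‖v‖) (fun y => f (y + v) - f y) := by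
  intro l hl x
  rw [← dl_cons']
  refine (h (v :: l) (by simpa using hl) x).trans (le_of_eq ?_)
  simp only [List.map_cons, List.prod_cons]; ring

lemma DB.add {m : ℕ} {A B : ℝ} (hf : DB m A f) (hg : DB m B g) :
    DB m (A + B) (fun y => f y + g y) := by
  intro l hl x
  rw [dl_add, add_mul]
  exact (abs_add_le _ _).trans (add_le_add (hf l hl x) (hg l hl x))

lemma DB.sub {m : ℕ} {A B : ℝ} (hf : DB m A f) (hg : DB m B g) :
    DB m (A + B) (fun y => f y - g y) := by
  intro l hl x
  rw [dl_sub, add_mul]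
  exact (abs_sub _ _).trans (add_le_add (hf l hl x) (hg l hl x))

lemma DB.smul {m : ℕ} {A : ℝ} (hf : DB m A f) (c : ℝ) : DB m (|c| * A) (fun y => c * f y) := by
  intro l hl x
  rw [dl_smul, abs_mul, mul_assoc]
  exact mul_le_mul_of_nonneg_left (hf l hl x) (abs_nonneg _)

lemma DB.mul : ∀ (m : ℕ) (f g : (Fin n → ℝ) → ℝ) (A B : ℝ), DB m A f → DB m B g →
    DB m (2 ^ m * (A * B)) (fun y => f y * g y) := by
  intro m
  induction m with
  | zero =>
      intro f g A B hf hg l hl x
      have hl0 : l = [] := List.length_eq_zero_iff.mp (Nat.le_zero.mp hl)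
      subst hl0
      simp only [dl_nil, List.map_nil, List.prod_nil, mul_one, pow_zero, one_mul, abs_mul]
      exact mul_le_mul (hf.bd x) (hg.bd x) (abs_nonneg _) hf.nonneg
  | succ m ih =>
      intro f g A B hf hg l hl x
      have hA := hf.nonneg
      have hB := hg.nonneg
      rcases l with _ | ⟨v, l⟩
      · simp only [dl_nil, List.map_nil, List.prod_nil, mul_one, abs_mul]
        calc |f x| * |g x| ≤ A * B := mul_le_mul (hf.bd x) (hg.bd x) (abs_nonneg _) hA
          _ ≤ 2 ^ (m + 1) * (A * B) := by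
              have : (1:ℝ) ≤ 2 ^ (m + 1) := one_le_pow₀ (by norm_num)
              nlinarith [mul_nonneg hA hB]
      · rw [dl_cons']
        have e : (fun y => f (y + v) * g (y + v) - f y * g y)
            = fun y => (f (y + v) - f y) * g (y + v) + f y * (g (y + v) - g y) := by
          funext y; ring
        rw [e]
        have h1 := ih _ _ _ _ (hf.diff v) ((hg.shift v).mono (Nat.le_succ m) le_rfl)
        have h2 := ih _ _ _ _ (hf.mono (Nat.le_succ m) le_rfl) (hg.diff v)
        have h3 := (h1.add h2) l (by simpa using hl) x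
        refine h3.trans (le_of_eq ?_)
        simp only [List.map_cons, List.prod_cons]; ring

/-- Differences of `C²` functions are `C²` and commute with the Laplacian. -/
lemma dl_contDiff {k : WithTop ℕ∞} (hf : ContDiff ℝ k f) :
    ∀ l : List (Fin n → ℝ), ContDiff ℝ k (dl l f) := by
  intro l
  induction l with
  | nil => exact hf
  | cons v l ih => exact contDiff_diff ih v

lemma lap_dl (hf : ContDiff ℝ 2 f) : ∀ (l : List (Fin n → ℝ)) (x : Fin n → ℝ),
    ∑ i, pd i (pd i (dl l f)) x = dl l (fun y => ∑ i, pd i (pd i f) y) x := by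
  intro l
  induction l with
  | nil => intro x; rfl
  | cons v l ih =>
      intro x
      rw [dl_cons, lap_diff (dl_contDiff hf l), ih, ih, dl_cons]

lemma pd_dl (hf : Differentiable ℝ f) (i : Fin n) : ∀ (l : List (Fin n → ℝ)) (x : Fin n → ℝ),
    Differentiable ℝ (dl l f) ∧ pd i (dl l f) x = dl l (pd i f) x := by
  intro l
  induction l with
  | nil => intro x; exact ⟨hf, rfl⟩
  | cons v l ih =>
      intro x
      have hd : Differentiable ℝ (dl l f) := (ih x).1
      constructor
      · have h1 : Differentiable ℝ (fun y : Fin n → ℝ => dl l f (y + v)) :=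
          hd.comp (differentiable_id.add_const v)
        exact h1.sub hd
      · rw [dl_cons, pd_diff hd, dl_cons]
        show pd i (dl l f) (x + v) - pd i (dl l f) x = _
        rw [(ih _).2, (ih _).2]

/-- The gradient bound transfers bounds for differences to the next order. -/
lemma DB.step (hf : ContDiff ℝ 2 f) {m : ℕ} {A B : ℝ} (h1 : DB m A f)
    (h2 : DB m B (fun y => ∑ i, pd i (pd i f) y)) :
    DB (m + 1) (max A (n * (n * A + B / 2))) f := by
  intro l hl x
  have hA := h1.nonneg
  have hB := h2.nonneg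
  have hn : (0:ℝ) ≤ n := Nat.cast_nonneg n
  rcases l with _ | ⟨v, l⟩
  · simp only [dl_nil, List.map_nil, List.prod_nil, mul_one]
    exact (h1.bd x).trans (le_max_left _ _)
  · have hl' : l.length ≤ m := by simpa using hl
    have hP : 0 ≤ (l.map norm).prod := List.prod_nonneg (by simp)
    have hg : ∀ y i, |pd i (dl l f) y| ≤ (n * A + B / 2) * (l.map norm).prod := by
      intro y i
      have := grad_bound (dl_contDiff hf l) (M := A * (l.map norm).prod)
        (N := B * (l.map norm).prod) (h1 l hl') (fun x => by rw [lap_dl hf]; exact h2 l hl' x) i y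
      calc _ ≤ _ := this
        _ = _ := by ring
    have := abs_sub_le_of_pd ((dl_contDiff hf l).differentiable (by norm_num)) hg x v
    rw [dl_cons]
    calc _ ≤ _ := this
      _ = (n * (n * A + B / 2)) * (‖v‖ * (l.map norm).prod) := by ring
      _ ≤ max A (n * (n * A + B / 2)) * (‖v‖ * (l.map norm).prod) :=
          mul_le_mul_of_nonneg_right (le_max_right _ _) (mul_nonneg (norm_nonneg _) hP)
      _ = _ := by simp only [List.map_cons, List.prod_cons]

theorem Sol.exists_DB (n m : ℕ) : ∃ C : ℝ, 1 ≤ C ∧ ∀ u : (Fin n → ℝ) → ℝ, Sol u → DB m C u := by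
  induction m with
  | zero =>
      refine ⟨1, le_rfl, fun u hu l hl x => ?_⟩
      have hl0 : l = [] := List.length_eq_zero_iff.mp (Nat.le_zero.mp hl)
      subst hl0
      simpa [dl_nil] using hu.bd x
  | succ m ih =>
      obtain ⟨C, hC1, hC⟩ := ih
      set B : ℝ := 2 ^ m * (2 ^ m * (C * C) * C) + C with hB
      refine ⟨max C (n * (n * C + B / 2)), hC1.trans (le_max_left _ _), fun u hu => ?_⟩
      have h1 := hC u hu
      apply DB.step hu.c2 h1
      have e : (fun y => ∑ i, pd i (pd i u) y) = fun y => (u y * u y) * u y - u y := by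
        funext y; rw [hu.eq]; ring
      rw [e]
      exact (DB.mul m _ _ _ _ (DB.mul m _ _ _ _ h1 h1) h1).sub h1

/-! ### From bounded differences to derivatives -/

lemma tendsto_quot (hf : Differentiable ℝ f) (i : Fin n) (x : Fin n → ℝ) :
    Tendsto (fun k : ℕ => ((k : ℝ) + 1) * (f (x + (1 / ((k : ℝ) + 1)) • Pi.single i 1) - f x))
      atTop (𝓝 (pd i f x)) := by
  have h := hasDerivAt_dir (w := f) (x := x) (v := Pi.single i 1) (s := 0) (hf _)
  rw [hasDerivAt_iff_tendsto_slope_zero] at h
  have h2 : Tendsto (fun k : ℕ => 1 / ((k : ℝ) + 1)) atTop (𝓝[≠] (0:ℝ)) := by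
    rw [tendsto_nhdsWithin_iff]
    refine ⟨tendsto_one_div_add_atTop_nhds_zero_nat, Eventually.of_forall fun k => ?_⟩
    simp only [Set.mem_compl_iff, Set.mem_singleton_iff]
    positivity
  have h3 := h.comp h2
  simp only [zero_smul, add_zero, zero_add] at h3
  refine h3.congr fun k => ?_
  simp only [Function.comp_apply, smul_eq_mul, one_div, inv_inv]

lemma dl_tendsto {ι : Type*} {L : Filter ι} {F : ι → (Fin n → ℝ) → ℝ} {G : (Fin n → ℝ) → ℝ}
    (h : ∀ x, Tendsto (fun t => F t x) L (𝓝 (G x))) : ∀ (l : List (Fin n → ℝ)) (x : Fin n → ℝ),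
    Tendsto (fun t => dl l (F t) x) L (𝓝 (dl l G x)) := by
  intro l
  induction l with
  | nil => exact h
  | cons v l ih => intro x; exact (ih (x + v)).sub (ih x)

lemma DB.quot {m : ℕ} {C : ℝ} (h : DB (m + 1) C f) (i : Fin n) (k : ℕ) :
    DB m C (fun x => ((k : ℝ) + 1) * (f (x + (1 / ((k : ℝ) + 1)) • Pi.single i 1) - f x)) := by
  have h1 := (h.diff ((1 / ((k : ℝ) + 1)) • Pi.single i 1)).smul ((k : ℝ) + 1)
  refine h1.mono le_rfl (le_of_eq ?_)
  have hk : (0:ℝ) < (k : ℝ) + 1 := by positivity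
  rw [norm_smul_single, abs_of_pos hk, abs_of_pos (by positivity)]
  field_simp

lemma DB.pd {m : ℕ} {C : ℝ} (hf : Differentiable ℝ f) (h : DB (m + 1) C f) (i : Fin n) :
    DB m C (pd i f) := by
  intro l hl x
  have ht := dl_tendsto (fun x => tendsto_quot hf i x) l x
  exact le_of_tendsto ht.abs (Eventually.of_forall fun k => h.quot i k l hl x)

/-- Bounded third differences give differentiability of the partial derivatives. -/
lemma DB.differentiable_pd {C : ℝ} (hf : Differentiable ℝ f) (h : DB 3 C f) (i : Fin n) :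
    Differentiable ℝ (Vale.Agent.P134.pd i f) := by
  set F : ℕ → (Fin n → ℝ) → ℝ := fun k x =>
    ((k : ℝ) + 1) * (f (x + (1 / ((k : ℝ) + 1)) • Pi.single i 1) - f x) with hF
  have hFd : ∀ k, Differentiable ℝ (F k) := by
    intro k
    have h1 : Differentiable ℝ (fun y : Fin n → ℝ => f (y + (1 / ((k : ℝ) + 1)) • Pi.single i 1)) :=
      hf.comp (differentiable_id.add_const _)
    exact (h1.sub hf).const_mul _
  have hFl : ∀ k x v j, |Vale.Agent.P134.pd j (F k) (x + v) - Vale.Agent.P134.pd j (F k) x| ≤ C * ‖v‖ := by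
    intro k x v j
    have h2 : DB 2 C (F k) := h.quot i k
    have h3 : DB 1 C (Vale.Agent.P134.pd j (F k)) := DB.pd (hFd k) h2 j
    have := h3 [v] (by simp) x
    simpa [dl_cons, dl_nil] using this
  exact (tendsto_pd_of_tendsto hFd hFl (fun x => tendsto_quot hf i x)).1

/-- Iterated partial derivatives. -/
noncomputable def ipd : List (Fin n) → ((Fin n → ℝ) → ℝ) → (Fin n → ℝ) → ℝ
  | [], f => f
  | i :: l, f => pd i (ipd l f)

lemma ipd_nil (f : (Fin n → ℝ) → ℝ) : ipd [] f = f := rfl
lemma ipd_cons (i : Fin n) (l : List (Fin n)) (f : (Fin n → ℝ) → ℝ) :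
    ipd (i :: l) f = pd i (ipd l f) := rfl

/-- Having bounded differences of all orders. -/
def Nice (f : (Fin n → ℝ) → ℝ) : Prop := Differentiable ℝ f ∧ ∀ m, ∃ C, DB m C f

lemma Nice.pd (h : Nice f) (i : Fin n) : Nice (Vale.Agent.P134.pd i f) := by
  obtain ⟨C, hC⟩ := h.2 3
  refine ⟨DB.differentiable_pd h.1 hC i, fun m => ?_⟩
  obtain ⟨C', hC'⟩ := h.2 (m + 1)
  exact ⟨C', DB.pd h.1 hC' i⟩

lemma Nice.contDiff : ∀ (k : ℕ) (f : (Fin n → ℝ) → ℝ), Nice f → ContDiff ℝ k f := by
  intro k
  induction k with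
  | zero => intro f h; exact contDiff_zero.mpr h.1.continuous
  | succ k ih =>
      intro f h
      have e : ((k + 1 : ℕ) : WithTop ℕ∞) = (k : WithTop ℕ∞) + 1 := by push_cast; rfl
      rw [e, contDiff_succ_iff_fderiv]
      refine ⟨h.1, by simp, ?_⟩
      have : fderiv ℝ f = fun x => ∑ i, Vale.Agent.P134.pd i f x •
          (ContinuousLinearMap.proj (R := ℝ) (φ := fun _ : Fin n => ℝ) i) := by
        funext x; exact fderiv_eq_sum_smul f x
      rw [this]
      apply ContDiff.sum
      intro i _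
      exact (ih _ (h.pd i)).smul contDiff_const

theorem Sol.nice (hu : Sol u) : Nice u :=
  ⟨hu.c2.differentiable (by norm_num), fun m => by
    obtain ⟨C, _, hC⟩ := Sol.exists_DB n m; exact ⟨C, hC u hu⟩⟩

/-- Bounded entire solutions are smooth. -/
theorem Sol.contDiff_nat (hu : Sol u) (k : ℕ) : ContDiff ℝ k u := Nice.contDiff k u (Sol.nice hu)

theorem Sol.contDiff_infty (hu : Sol u) : ContDiff ℝ (⊤ : ℕ∞) u :=
  _root_.contDiff_infty.mpr fun k => Sol.contDiff_nat hu k

lemma Nice.ipd (h : Nice f) : ∀ l : List (Fin n), Nice (SM.ipd l f) := by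
  intro l
  induction l with
  | nil => exact h
  | cons i l ih => exact ih.pd i

theorem Sol.ipd_contDiff (hu : Sol u) (l : List (Fin n)) (k : ℕ) : ContDiff ℝ k (ipd l u) :=
  Nice.contDiff k _ ((Sol.nice hu).ipd l)

lemma DB_ipd : ∀ (l : List (Fin n)) {m : ℕ} {C : ℝ} {f : (Fin n → ℝ) → ℝ}, Nice f →
    DB (m + l.length) C f → DB m C (ipd l f) := by
  intro l
  induction l with
  | nil => intro m C f _ h; exact h
  | cons i l ih =>
      intro m C f hf h
      have h1 : DB (m + 1) C (ipd l f) := ih hf (by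
        have e : m + 1 + l.length = m + (i :: l).length := by simp only [List.length_cons]; ring
        rw [e]; exact h)
      exact DB.pd (hf.ipd l).1 h1 i

/-- Universal bounds for all derivatives. -/
theorem Sol.ipd_bound (n k : ℕ) : ∃ C : ℝ, 1 ≤ C ∧ ∀ u : (Fin n → ℝ) → ℝ, Sol u →
    ∀ l : List (Fin n), l.length ≤ k → ∀ x, |ipd l u x| ≤ C := by
  obtain ⟨C, hC1, hC⟩ := Sol.exists_DB n k
  refine ⟨C, hC1, fun u hu l hl x => ?_⟩
  have h := DB_ipd l (m := 0) (Sol.nice hu) ((hC u hu).mono (by simpa using hl) le_rfl)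
  exact h.bd x

end Vale.Agent.P134.SM
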